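import Vale.Agent.P144T.Defs
import Vale.Agent.P144M.Bdc

/-!
The boundary values of the limit of the `H`-functions in a multiply connected domain.
-/

namespace Vale.Agent.P144T.V

open Filter Topology Metric Vale.Agent.P144
open Vale.Agent.P144.H170 (Pt pt nf ev_nf compact_ev cconv_iff pt_fl_norm tendsto_fst_nf)
open Vale.Agent.P144Q.V (fat' king ext_out two decay)
open Vale.Agent.P144M (LocC VanM SgnM)

theorem lap_sub (u : Site → ℝ) (c : ℝ) (x : Site) : AL.lap (fun y => u y - c) x = AL.lap u x := by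
  unfold AL.lap; ring

/-- The negative part of `Hf - c` is subharmonic at regular faces. -/
theorem lap_neg {Λ : Finset Site} {Hs Hf : Site → ℝ} (h : HB Λ Hs Hf) {x : Site} {c : ℝ}
    (hr : Reg Λ Hs Hf x) (hc : ∀ u ∈ AL.cnr x, u ∉ Λ → Hs u = c) :
    0 ≤ AL.lap (fun y => max (c - Hf y) 0) x := by
  have a1 := fun y => le_max_left (c - Hf y) 0
  have a2 := fun y => le_max_right (c - Hf y) 0
  unfold AL.lap
  rcases le_total (c - Hf x) 0 with h0 | h0
  · simp only [max_eq_right h0]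
    linarith [a2 (x.1 + 1, x.2), a2 (x.1 - 1, x.2), a2 (x.1, x.2 + 1), a2 (x.1, x.2 - 1)]
  · by_cases hin : ∀ u ∈ AL.cnr x, u ∈ Λ
    · have := hr.2 hin
      unfold AL.lap at this
      simp only [max_eq_left h0]
      linarith [a1 (x.1 + 1, x.2), a1 (x.1 - 1, x.2), a1 (x.1, x.2 + 1), a1 (x.1, x.2 - 1)]
    · push Not at hin
      obtain ⟨u, hu, hΛ⟩ := hin
      simp only [h.zero x u hu hΛ, hc u hu hΛ, sub_self, max_self]
      linarith [a2 (x.1 + 1, x.2), a2 (x.1 - 1, x.2), a2 (x.1, x.2 + 1), a2 (x.1, x.2 - 1)]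

section

variable {D : Set ℂ} {ι : Type} {l : Filter ι} {a : ι → ℝ} {N : ι → Finset Site}
  {Hs Hf : ι → Site → ℝ} {K : Set ℂ} {h : ℂ → ℝ}

theorem small (H : HData D l a N Hs Hf K h) {s : ℝ} (hs : 0 < s) :
    ∀ᶠ k in l, 0 < a k ∧ a k < s :=
  (H.a0.eventually self_mem_nhdsWithin).and
    ((H.a0.mono_right nhdsWithin_le_nhds).eventually (gt_mem_nhds hs))

/-- `c k` is the value of `Hs k` at the outer sites near `p`. -/
def Val (l : Filter ι) (a : ι → ℝ) (N : ι → Finset Site) (Hs : ι → Site → ℝ) (p : ℂ) (r : ℝ)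
    (c : ι → ℝ) : Prop :=
  ∀ᶠ k in l, ∀ x ∉ N k, ‖pt (a k) x - p‖ ≤ r → Hs k x = c k

theorem Val.mono {p q : ℂ} {r s : ℝ} {c : ι → ℝ} (h : Val l a N Hs p r c)
    (hq : ‖q - p‖ + s ≤ r) : Val l a N Hs q s c :=
  Eventually.mono h fun k hk x hx e => hk x hx (by
    linarith [norm_sub_le_norm_sub_add_norm_sub (pt (a k) x) q p])

/-- The decay near a point outside `D`. -/
theorem loc (hF : Fat D) (H : HData D l a N Hs Hf K h) {p : ℂ} (hp : p ∉ D) (hp' : p ∈ Dia)
    {r : ℝ} (hr : 0 < r) {c : ι → ℝ} (hc : Val l a N Hs p r c) :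
    (∃ M, ∀ᶠ k in l, |c k| ≤ M) ∧ ∀ ε > (0 : ℝ), ∀ᶠ kx in nf l a p,
      hat (N kx.1) (Hs kx.1) kx.2 - c kx.1 ≤ ε ∧ c kx.1 - Hf kx.1 kx.2 ≤ ε := by
  obtain ⟨κ, hκ, hκ1, r₀, hr₀, hF⟩ := fat' hF
  have pK : p ∈ Dia \ K := ⟨hp', fun h' => hp (H.sub h')⟩
  obtain ⟨M, hM⟩ := H.bdd p pK
  obtain ⟨R', hR', hk⟩ := (ev_nf (P := fun k x => Reg (N k) (Hs k) (Hf k) x ∧
    Hs k x ≤ M ∧ -Hf k x ≤ M)).1 ((H.reg p pK).and hM)
  obtain ⟨R, hR, R1, R2, R3⟩ : ∃ R > (0 : ℝ), R ≤ R' ∧ R ≤ r ∧ R ≤ r₀ :=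
    ⟨min R' (min r r₀), by positivity, min_le_left _ _,
      (min_le_right _ _).trans (min_le_left _ _), (min_le_right _ _).trans (min_le_right _ _)⟩
  have hM0 := abs_nonneg M
  have hM1 := le_abs_self M
  have hcM : ∀ᶠ k in l, |c k| ≤ |M| := by
    have k0 : κ * (R / 2) ≤ R / 2 := mul_le_of_le_one_left (by positivity) hκ1
    obtain ⟨w, b3, b4⟩ := hF p hp (R / 2) (by positivity) (by linarith)
    filter_upwards [hk, hc, H.hb, H.ap.sub (κ * (R / 2) / 4) (by positivity),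
      small H (s := κ * (R / 2) / 8) (by positivity)] with k h1 h0 h2 h3 ⟨h4, h5⟩
    have c1 := pt_fl_norm h4 w
    have c2 : fl (a k) w ∉ N k :=
      ext_out h4 h3 b4 (by linarith) (x := fl (a k) w) (by linarith) (by simp) (by simp)
    have c3 := norm_sub_le_norm_sub_add_norm_sub (pt (a k) (fl (a k) w)) w p
    obtain ⟨-, c4, c5⟩ := h1 (fl (a k) w) (by linarith)
    rw [h2.zero _ _ (self_cnr _) c2] at c5
    rw [← h0 _ c2 (by linarith), abs_le]
    constructor <;> linarith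
  refine ⟨⟨_, hcM⟩, fun ε hε => ?_⟩
  obtain ⟨n, hn⟩ := exists_pow_lt_of_lt_one (x := ε / (2 * |M| + 1)) (y := 1 - (κ / 2) ^ 2 / 16)
    (by positivity) (by have : 0 < (κ / 2) ^ 2 / 16 := by positivity
                        linarith)
  have hn' : (1 - (κ / 2) ^ 2 / 16) ^ n * (2 * |M|) ≤ ε := by
    rw [lt_div_iff₀ (by positivity)] at hn
    have : 0 ≤ (1 - (κ / 2) ^ 2 / 16) ^ n := pow_nonneg (by nlinarith) n
    nlinarith
  obtain ⟨t, ht⟩ : ∃ t, t = R / 4 / 9 ^ n := ⟨_, rfl⟩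
  have ht0 : 0 < t := by rw [ht]; positivity
  have ht1 : 9 ^ n * t = R / 4 := by rw [ht]; field_simp
  have ht4 : t ≤ 9 ^ n * t := le_mul_of_one_le_left ht0.le (one_le_pow₀ (by norm_num))
  have ht5 : κ * t ≤ t := mul_le_of_le_one_left ht0.le hκ1
  refine (ev_nf (P := fun k x => hat (N k) (Hs k) x - c k ≤ ε ∧ c k - Hf k x ≤ ε)).2 ⟨t, ht0, ?_⟩
  filter_upwards [hk, hc, hcM, H.hb, H.ap.sub (κ * t / 4) (by positivity),
    small H (s := κ * t / 12) (by positivity)] with k h1 h0 h6 h2 h3 ⟨h4, h5⟩ x hx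
  rw [abs_le] at h6
  have ext : ∀ s, t ≤ s → s ≤ 9 ^ n * t → ∃ q, ‖q - p‖ ≤ s ∧ ∀ x, ‖pt (a k) x - q‖ ≤ κ / 2 * s →
      ∀ y : Site, |y.1 - x.1| ≤ 1 → |y.2 - x.2| ≤ 1 → y ∉ N k ∧ Hs k y = c k := by
    intro s b1 b2
    obtain ⟨w, b3, b4⟩ := hF p hp s (by linarith) (by linarith)
    have b5 := mul_le_mul_of_nonneg_left b1 hκ.le
    have b7 : κ * s ≤ s := mul_le_of_le_one_left (by linarith) hκ1
    refine ⟨w, b3, fun x b6 y c1 c2 => ?_⟩
    have c3 : y ∉ N k := ext_out h4 h3 b4 (by linarith) (by linarith) c1 c2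
    refine ⟨c3, h0 y c3 ?_⟩
    linarith [norm_sub_le_norm_sub_add_norm_sub (pt (a k) y) (pt (a k) x) p,
      norm_sub_le_norm_sub_add_norm_sub (pt (a k) x) w p, king h4 c1 c2]
  constructor
  · refine le_trans (decay (u := fun y => hat (N k) (Hs k) y - c k) (z := p) (η := κ / 2) h4
      (by linarith) (by positivity) n ht0 (by linarith)
      (fun y hy => ⟨by rw [lap_sub]; exact (h1 y (by linarith)).1.1, ?_⟩)
      (fun s b1 b2 => ?_) hx) hn'
    · have nb : ∀ w : Site, |w.1 - y.1| ≤ 1 → |w.2 - y.2| ≤ 1 → Hs k w ≤ |M| := by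
        intro w c1 c2
        have := norm_sub_le_norm_sub_add_norm_sub (pt (a k) w) (pt (a k) y) p
        exact (h1 w (by linarith [king h4 c1 c2])).2.1.trans hM1
      by_cases hy' : y ∈ N k
      · rw [hat_in hy']; linarith [nb y (by simp) (by simp)]
      · rw [hat_out hy']
        unfold AL.lap
        linarith [nb (y.1 + 1, y.2) (by simp) (by simp), nb (y.1 - 1, y.2) (by simp) (by simp),
          nb (y.1, y.2 + 1) (by simp) (by simp), nb (y.1, y.2 - 1) (by simp) (by simp),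
          nb y (by simp) (by simp)]
    · obtain ⟨q, b3, b4⟩ := ext s b1 b2
      refine ⟨q, b3, fun y hy => ?_⟩
      rw [hat_out (b4 y hy y (by simp) (by simp)).1]
      unfold AL.lap
      rw [(b4 y hy (y.1 + 1, y.2) (by simp) (by simp)).2,
        (b4 y hy (y.1 - 1, y.2) (by simp) (by simp)).2,
        (b4 y hy (y.1, y.2 + 1) (by simp) (by simp)).2,
        (b4 y hy (y.1, y.2 - 1) (by simp) (by simp)).2, (b4 y hy y (by simp) (by simp)).2]
      linarith
  · refine (le_max_left _ 0).trans (le_trans (decay (u := fun y => max (c k - Hf k y) 0) (z := p)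
      (η := κ / 2) h4 (by linarith) (by positivity) n ht0 (by linarith)
      (fun y hy => ⟨lap_neg h2 (h1 y (by linarith)).1 fun u u1 u2 => h0 u u2 ?_,
        max_le (by linarith [(h1 y (by linarith)).2.2]) (by positivity)⟩) (fun s b1 b2 => ?_) hx)
      hn')
    · have := king h4 (x := y) (y := u)
        (by rcases AL.mem_cnr.1 u1 with rfl | rfl | rfl | rfl <;> simp)
        (by rcases AL.mem_cnr.1 u1 with rfl | rfl | rfl | rfl <;> simp)
      linarith [norm_sub_le_norm_sub_add_norm_sub (pt (a k) u) (pt (a k) y) p]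
    · obtain ⟨q, b3, b4⟩ := ext s b1 b2
      refine ⟨q, b3, fun y hy => ?_⟩
      rw [h2.zero y y (self_cnr _) (b4 y hy y (by simp) (by simp)).1,
        (b4 y hy y (by simp) (by simp)).2]
      simp

/-- The limit is close to the boundary value near a point outside `D`. -/
theorem loc_lim (hF : Fat D) (H : HData D l a N Hs Hf K h) {p : ℂ} (hp : p ∉ D) (hp' : p ∈ Dia)
    {r : ℝ} (hr : 0 < r) {c : ι → ℝ} (hc : Val l a N Hs p r c) {v : ℝ} (hv : Tendsto c l (𝓝 v))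
    {ε : ℝ} (hε : 0 < ε) : ∀ᶠ z in 𝓝 p, z ∈ D → |h z - v| ≤ ε := by
  have := H.ne
  obtain ⟨r, hr, hk⟩ := (ev_nf (P := fun k x => hat (N k) (Hs k) x - c k ≤ ε ∧
    c k - Hf k x ≤ ε)).1 ((loc hF H hp hp' hr hc).2 ε hε)
  filter_upwards [ball_mem_nhds p (half_pos hr),
    H.cpt.isClosed.isOpen_compl.mem_nhds fun h' => hp (H.sub h')] with z h1 h2 h3
  rw [mem_ball, dist_eq_norm] at h1
  have key : ∀ᶠ k in l, Hs k (fl (a k) z) - c k ≤ ε ∧ c k - Hf k (fl (a k) z) ≤ ε := by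
    filter_upwards [hk, H.hb, small H (s := r / 4) (by positivity)] with k b1 b2 ⟨b3, b4⟩
    have b5 := norm_sub_le_norm_sub_add_norm_sub (pt (a k) (fl (a k) z)) z p
    have b6 := b1 (fl (a k) z) (by linarith [pt_fl_norm b3 z])
    exact ⟨by linarith [b2.le_hat (fl (a k) z), b6.1], b6.2⟩
  have a1 := le_of_tendsto ((H.hs.at H.a0 ⟨h3, h2⟩).sub hv) (key.mono fun k hk => hk.1)
  have a2 := le_of_tendsto (hv.sub (H.hf.at H.a0 ⟨h3, h2⟩)) (key.mono fun k hk => hk.2)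
  exact abs_le.2 ⟨by linarith, a1⟩

/-- The values at the outer sites. -/
theorem exists_val (hF : Fat D) (H : HData D l a N Hs Hf K h) : ∃ r > (0 : ℝ), ∃ c : ℂ → ι → ℝ,
    (∀ p ∉ D, Val l a N Hs p r (c p)) ∧ ∀ p ∉ D, ∀ p' ∉ D, ‖p - p'‖ < r / 2 → c p =ᶠ[l] c p' := by
  obtain ⟨κ, hκ, hκ1, r₀, hr₀, hF⟩ := fat' hF
  obtain ⟨r, hr, hk⟩ := H.ap.kc
  obtain ⟨s, s0, s1, s2⟩ : ∃ s > (0 : ℝ), s ≤ r₀ ∧ 8 * s ≤ r :=
    ⟨min r₀ (r / 8), by positivity, min_le_left _ _, by linarith [min_le_right r₀ (r / 8)]⟩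
  choose! w w1 w2 using fun p hp => hF p hp s s0 s1
  have k0 : κ * s ≤ s := mul_le_of_le_one_left s0.le hκ1
  have e : ∀ᶠ k in l, ∀ p ∉ D, fl (a k) (w p) ∉ N k ∧ ‖pt (a k) (fl (a k) (w p)) - p‖ ≤ 2 * s := by
    filter_upwards [H.ap.sub (κ * s / 4) (by positivity),
      small H (s := κ * s / 8) (by positivity)] with k h3 ⟨h4, h5⟩ p hp
    have c1 := pt_fl_norm h4 (w p)
    refine ⟨ext_out h4 h3 (w2 p hp) (by linarith) (x := fl (a k) (w p)) (by linarith) (by simp)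
      (by simp), ?_⟩
    linarith [norm_sub_le_norm_sub_add_norm_sub (pt (a k) (fl (a k) (w p))) (w p) p, w1 p hp]
  have v : ∀ p ∉ D, Val l a N Hs p (r / 2) fun k => Hs k (fl (a k) (w p)) := fun p hp => by
    filter_upwards [hk, e, H.hb] with k b1 b2 b3 x hx b4
    refine ((b3.kg hx (b1 x hx _ (b2 p hp).1 ?_)).2).symm
    have := norm_sub_le_norm_sub_add_norm_sub (pt (a k) x) p (pt (a k) (fl (a k) (w p)))
    rw [norm_sub_rev p] at this
    linarith [(b2 p hp).2]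
  refine ⟨r / 2, by positivity, _, v, fun p hp p' hp' b => ?_⟩
  filter_upwards [v p' hp', e] with k b1 b2
  refine b1 _ (b2 p hp).1 ?_
  linarith [norm_sub_le_norm_sub_add_norm_sub (pt (a k) (fl (a k) (w p))) p p', (b2 p hp).2]

theorem van0 (hD : IsOpen D) (hD' : D ⊆ ball 0 (1 / 4)) (hF : Fat D)
    (H : HData D l a N Hs Hf K h) : Van D h := by
  intro hne
  obtain ⟨r, hr, c, hc, -⟩ := exists_val hF H
  obtain ⟨p, p1, p2⟩ := (isBounded_ball.subset hD').isCompact_closure.exists_isMaxOn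
    hne.closure (f := Complex.re) Complex.continuous_re.continuousOn
  have p3 : ∀ z ∈ D, z.re ≤ p.re := fun z hz => p2 (subset_closure hz)
  have hp : p ∉ D := fun b => by
    obtain ⟨δ, hδ, h1⟩ := Metric.isOpen_iff.1 hD p b
    have := p3 (p + (δ / 2 : ℝ)) (h1 (by
      rw [mem_ball, dist_eq_norm, add_sub_cancel_left, Complex.norm_real,
        Real.norm_of_nonneg (by positivity)]
      linarith))
    rw [Complex.add_re, Complex.ofReal_re] at this
    linarith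
  have hp4 : ‖p‖ ≤ 1 / 4 := by
    have := closure_mono hD' p1
    rw [closure_ball _ (by norm_num)] at this
    simpa using this
  refine ⟨p, p1, hp, fun ε hε => ?_⟩
  have h0 : ∀ᶠ k in l, c p k = 0 := by
    filter_upwards [hc p hp, H.hb, H.ap.sub (r / 8) (by positivity),
      small H (s := r / 8) (by positivity)] with k b1 b2 b3 ⟨b4, b5⟩
    obtain ⟨q, q1, q2⟩ : ∃ q : ℂ, q.re = p.re + r / 2 ∧ ‖q - p‖ = r / 2 :=
      ⟨p + ((r / 2 : ℝ) : ℂ), by rw [Complex.add_re, Complex.ofReal_re], by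
        rw [add_sub_cancel_left, Complex.norm_real, Real.norm_of_nonneg (by positivity)]⟩
    have c1 := pt_fl_norm b4 q
    have c2 := (abs_le.1 ((Complex.abs_re_le_norm _).trans c1)).1
    have o : ∀ n : ℕ, (((fl (a k) q).1 + 1 * n, (fl (a k) q).2) : Site) ∉ N k := fun n b => by
      obtain ⟨z, z1, z2⟩ := b3 _ b
      have c3 := (abs_le.1 ((Complex.abs_re_le_norm _).trans z2)).2
      have c4 : 0 ≤ a k * n := by positivity
      simp only [pt, Complex.sub_re] at c2 c3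
      push_cast at c3
      linarith [p3 z z1]
    rw [← b1 (fl (a k) q) (by simpa using o 0) ?_]
    · exact b2.ray (Or.inl rfl) o
    · linarith [norm_sub_le_norm_sub_add_norm_sub (pt (a k) (fl (a k) q)) q p]
  simpa using loc_lim hF H hp (ball_Dia (by linarith)) hr (hc p hp)
    (tendsto_const_nhds.congr' (h0.mono fun _ b => b.symm)) hε

theorem sgn0 (hD : IsOpen D) (hD' : D ⊆ ball 0 (1 / 4)) (hF : Fat D)
    (H : HData D l a N Hs Hf K h) {p : ℂ} (hp : p ∈ frontier D) {R : ℝ} (hR : 0 < R) {c : ι → ℝ}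
    (hv : Val l a N Hs p R c) {v : ℝ} (hl : Tendsto c l (𝓝 v)) {r : ℝ} (hr : 0 < r) :
    ∃ z ∈ D, ‖z - p‖ < r ∧ v ≤ h z := by
  have := H.ne
  by_contra hc
  push Not at hc
  have hpD : p ∉ D := by rw [hD.frontier_eq] at hp; exact hp.2
  have hp4 : ‖p‖ ≤ 1 / 4 := by
    have := closure_mono hD' (frontier_subset_closure hp)
    rw [closure_ball _ (by norm_num)] at this
    simpa using this
  obtain ⟨κ, hκ, hκ1, r₀, hr₀, hF'⟩ := fat' hF
  obtain ⟨r1, hr1, h1⟩ := Metric.mem_nhds_iff.1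
    (H.cpt.isClosed.isOpen_compl.mem_nhds fun h' => hpD (H.sub h'))
  obtain ⟨s, hs, s1, s2, s3, s4, s5⟩ : ∃ s > (0:ℝ), 10 * s < r ∧ 10 * s < r1 ∧ s < r₀ ∧
      10 * s < 1 / 4 ∧ 20 * s < R := by
    have t : ∀ b : ℝ, Tendsto (fun s : ℝ => b * s) (𝓝[>] 0) (𝓝 0) := fun b => by
      have : Tendsto (fun s : ℝ => b * s) (𝓝 0) (𝓝 (b * 0)) := tendsto_id.const_mul b
      rw [mul_zero] at this
      exact this.mono_left nhdsWithin_le_nhds
    exact ((show ∀ᶠ s in 𝓝[>] (0 : ℝ), 0 < s from self_mem_nhdsWithin).and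
      (((t 10).eventually_lt_const hr).and (((t 10).eventually_lt_const hr1).and
      ((show ∀ᶠ s in 𝓝[>] (0 : ℝ), s < r₀ from nhdsWithin_le_nhds (gt_mem_nhds hr₀)).and
      (((t 10).eventually_lt_const (by norm_num)).and ((t 20).eventually_lt_const hR)))))).exists
  have inB : ∀ z ∈ closedBall p (10 * s), z ∈ Dia \ K ∧ ‖z - p‖ ≤ 10 * s := by
    intro z hz
    rw [mem_closedBall] at hz
    refine ⟨⟨ball_Dia ?_, h1 (mem_ball.2 (by linarith))⟩, by rwa [← dist_eq_norm]⟩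
    have := norm_add_le (z - p) p
    rw [sub_add_cancel, ← dist_eq_norm] at this
    linarith
  obtain ⟨z, hz, h2⟩ := Metric.mem_closure_iff.1 (frontier_subset_closure hp) (s / 2)
    (by positivity)
  rw [dist_comm] at h2
  obtain ⟨h3, h4⟩ := inB z (mem_closedBall.2 (by linarith))
  rw [dist_eq_norm] at h2
  have hm := hc z hz (by linarith)
  have lim : ∀ y ∈ D \ K, Tendsto (fun kx : ι × Pt => Hs kx.1 kx.2 - c kx.1) (nf l a y)
      (𝓝 (h y - v)) := fun y hy => (cconv_iff.1 H.hs y hy).sub (hl.comp (tendsto_fst_nf y))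
  obtain ⟨δ0, hδ0, h5⟩ := (ev_nf (P := fun k x => hat (N k) (Hs k) x - c k ≤ (h z - v) / 2)).1 (by
    filter_upwards [H.ap.inn z hz, (lim z ⟨hz, h3.2⟩).eventually
      (gt_mem_nhds (by linarith : h z - v < (h z - v) / 2))] with kx b1 b2
    rw [hat_in b1]; exact b2.le)
  obtain ⟨δ, hδ, d1, d2⟩ : ∃ δ > (0:ℝ), δ ≤ δ0 ∧ δ ≤ s :=
    ⟨min δ0 s, by positivity, min_le_left _ _, min_le_right _ _⟩
  obtain ⟨ε, hε⟩ : ∃ ε, ε = -(h z - v) / 4 * (δ / (4 * s)) ^ 2 := ⟨_, rfl⟩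
  have hq : 0 < (δ / (4 * s)) ^ 2 := by positivity
  have hε0 : 0 < ε := by rw [hε]; exact mul_pos (by linarith) hq
  have h6 := compact_ev (l := l) (a := a) (isCompact_closedBall p (10 * s))
    (P := fun k x => Reg (N k) (Hs k) (Hf k) x ∧ hat (N k) (Hs k) x - c k ≤ ε) fun y hy => by
      obtain ⟨b1, b2⟩ := inB y hy
      refine (H.reg y b1).and ?_
      by_cases hyD : y ∈ D
      · filter_upwards [H.ap.inn y hyD, (lim y ⟨hyD, b1.2⟩).eventually
          (gt_mem_nhds (show h y - v < ε by linarith [hc y hyD (by linarith)]))] with kx b3 b4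
        rw [hat_in b3]; exact b4.le
      · exact ((loc hF H hyD b1.1 hs (hv.mono (by linarith))).2 ε hε0).mono fun kx b3 => b3.1
  obtain ⟨w, h7, h8⟩ := hF' p hpD s hs s3.le
  have h9 : κ * s ≤ s := mul_le_of_le_one_left hs.le hκ1
  obtain ⟨k, b0, b1, b2, b3, b4, ⟨b5, b6⟩, -, b7⟩ := (Eventually.and hv (h5.and (h6.and (H.hb.and
    ((H.ap.sub (κ * s / 4) (by positivity)).and ((small H (s := κ * s / 8) (by positivity)).and
    (small H (s := δ / 6) (by positivity)))))))).exists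
  have c1 := pt_fl_norm b5 w
  have c2 : fl (a k) w ∉ N k :=
    ext_out b5 b4 h8 (by linarith) (x := fl (a k) w) (by linarith) (by simp) (by simp)
  have key := two (u := fun y => hat (N k) (Hs k) y - c k) (c := z) (r := δ) (ρ := 4 * s)
    (α := (h z - v) / 2) (β := ε) b5 (by linarith) (by linarith) (by linarith) (fun x hx => by
      have c3 := norm_sub_le_norm_sub_add_norm_sub (pt (a k) x) z p
      obtain ⟨c4, c5⟩ := b2 x (by rw [mem_closedBall, dist_eq_norm]; linarith)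
      exact ⟨by rw [lap_sub]; exact c4.1, c5⟩) (fun x hx => b1 x (hx.trans d1))
      (x := fl (a k) w) (by
      have c3 := norm_sub_le_norm_sub_add_norm_sub (pt (a k) (fl (a k) w)) w z
      have c4 := norm_sub_le_norm_sub_add_norm_sub w p z
      rw [norm_sub_rev p z] at c4
      linarith)
  have c3 := b3.le_hat (fl (a k) w)
  rw [b0 _ c2 (by linarith [norm_sub_le_norm_sub_add_norm_sub (pt (a k) (fl (a k) w)) w p])] at c3
  nlinarith [mul_pos hε0 hq]

end

/-- **The boundary values.** -/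
theorem van {D : Set ℂ} {ι : Type} {l : Ultrafilter ι} {a : ι → ℝ} {N : ι → Finset Site}
    {Hs Hf : ι → Site → ℝ} {K : Set ℂ} {h : ℂ → ℝ} (hD : IsOpen D) (hD' : D ⊆ ball 0 (1 / 4))
    (hF : Fat D) (H : HData D (l : Filter ι) a N Hs Hf K h) :
    ∃ cv, LocC D cv ∧ VanM D h cv ∧ SgnM D h cv := by
  obtain ⟨r, hr, c, hc, hc'⟩ := exists_val hF H
  have hl : ∀ p ∉ D, p ∈ Dia → Tendsto (c p) l (𝓝 (limUnder (l : Filter ι) (c p))) := by
    intro p hp hp'
    obtain ⟨M, hM⟩ := (loc hF H hp hp' hr (hc p hp)).1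
    obtain ⟨v, -, hv⟩ := (isCompact_Icc (a := -M) (b := M)).ultrafilter_le_nhds' (l.map (c p))
      (Ultrafilter.mem_map.2 (hM.mono fun k hk => abs_le.1 hk))
    exact tendsto_nhds_limUnder ⟨v, hv⟩
  have hC : ∀ p ∉ D, ∀ p' ∉ D, ‖p - p'‖ < r / 2 →
      limUnder (l : Filter ι) (c p) = limUnder (l : Filter ι) (c p') := fun p hp p' hp' b =>
    congrArg lim (map_congr (hc' p hp p' hp' b))
  refine ⟨fun p => limUnder (l : Filter ι) (c p), ⟨r / 2, by positivity, hC⟩, fun ε hε => ?_,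
    fun p hp s hs => ?_⟩
  · have hK : IsCompact (closedBall (0:ℂ) (1 / 2) \ D) := (isCompact_closedBall _ _).diff hD
    obtain ⟨δ, hδ, h1⟩ := uniformity_basis_dist.lebesgue_number_lemma_nhds' hK
      (U := fun p _ => {z | ‖z - p‖ < r / 2 ∧ (z ∈ D → |h z - limUnder (l : Filter ι) (c p)| ≤ ε)})
      fun p hp => by
        have hp' : p ∈ Dia := ball_Dia (by simpa using hp.1)
        filter_upwards [ball_mem_nhds p (half_pos hr),
          loc_lim hF H hp.2 hp' hr (hc p hp.2) (hl p hp.2 hp') hε] with z b1 b2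
        exact ⟨by rwa [mem_ball, dist_eq_norm] at b1, b2⟩
    refine ⟨min δ (1 / 4), by positivity, fun z hz p hp b => ?_⟩
    obtain ⟨y, hy⟩ := h1 p ⟨by
      have a1 := mem_ball_zero_iff.1 (hD' hz)
      have a2 := norm_sub_le z (z - p)
      rw [sub_sub_cancel] at a2
      rw [mem_closedBall_zero_iff]
      linarith [min_le_right δ (1 / 4)], hp⟩
    show |h z - limUnder (l : Filter ι) (c p)| ≤ ε
    rw [hC p hp y y.2.2 (hy (show dist p p < δ by rwa [dist_self])).1]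
    exact (hy (show dist p z < δ by
      rw [dist_comm, dist_eq_norm]; exact b.trans_le (min_le_left _ _))).2 hz
  · have hpD : p ∉ D := by rw [hD.frontier_eq] at hp; exact hp.2
    have hp4 : ‖p‖ ≤ 1 / 4 := by
      have := closure_mono hD' (frontier_subset_closure hp)
      rw [closure_ball _ (by norm_num)] at this
      simpa using this
    exact sgn0 hD hD' hF H hp hr (hc p hpD) (hl p hpD (ball_Dia (by linarith))) hs

end Vale.Agent.P144T.V
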