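import Vale.Agent.P144Q.U.All
import Vale.Agent.P144M.Atlas
import Vale.Agent.P144T.BXj
import Vale.Agent.P144T.C.K34
import Vale.Agent.P144T.K12
import Vale.Agent.P144T.A.Xj
import Vale.Agent.P144T.E.Norm
import Vale.Agent.P144T.Van

/-!
All scaling limits of the free critical model exist in connected domains of class `Lip3`.
-/

namespace Vale.Agent.P144T

open Filter Topology Metric Set Vale.Agent.P144
open Vale.Agent.P144.H170 (pt ev_nf)
open Vale.Agent.P144Q.L (Lip3 Cn)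

theorem lat3 {D : Set ℂ} (hD : Lip3 D) : Fam0 D (disc D) := by
  obtain ⟨hop, hb, γ, r, hγ, hr, h⟩ := hD
  refine ⟨fun z hz => ?_, fun ε hε => ?_, γ * r / 8, by positivity, ?_⟩
  · obtain ⟨r, hr, h⟩ := nhds_basis_closedBall.mem_iff.1 (hop.mem_nhds hz)
    refine (ev_nf (P := fun k x => x ∈ disc D k)).2 ⟨r, hr, ?_⟩
    filter_upwards [self_mem_nhdsWithin] with a ha x hx
    exact (mem_disc hb ha x).2 (h (by rwa [mem_closedBall, dist_eq_norm]))
  · filter_upwards [self_mem_nhdsWithin] with a ha x hx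
    exact ⟨_, (mem_disc hb ha x).1 hx, by
      have : pt a x - (⟨a * x.1, a * x.2⟩ : ℂ) = 0 := sub_self _
      rw [this, norm_zero]; exact hε.le⟩
  · filter_upwards [Ioc_mem_nhdsGT (show 0 < min (γ * r / 16) (r / 1000) by positivity)]
      with a ha v hv w hw e
    rw [mem_disc hb ha.1] at hv hw
    obtain ⟨u, hu⟩ := (h (pt a w)).cn hγ hr ha.1 (ha.2.trans (min_le_left _ _))
      (ha.2.trans (min_le_right _ _))
    have key : Cn D a v w :=
      (hu v hv e).trans (hu w hw (by rw [sub_self, norm_zero]; positivity)).symm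
    clear hw e hu
    induction key with
    | refl => exact .refl
    | tail _ h2 ih => exact ih.tail ⟨fun hy => h2.2.1 ((mem_disc hb ha.1 _).1 hy), h2.2.2⟩

theorem dom3 {D : Set ℂ} (hD : Lip3 D) (hs : IsConnected D) (hsm : D ⊆ ball 0 (1 / 4)) :
    ∃ Ω : Dom, Ω.D = D := by
  obtain ⟨ι, _, ⟨c⟩⟩ := P144M.atlas hD hs
  have hF := P144Q.L.fat3 hD
  refine ⟨⟨D, c.Bd, hD.1, hsm, fun T hT => P144M.pre_diff_fin hD.1 hs.isPreconnected hT,
    c.toChs.smul, c.toChs.zero, c.toChs.uni, hF, fun h => V.van0 hD.1 hsm hF h,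
    fun h F h1 h2 => ?_⟩, rfl⟩
  obtain ⟨cv, c1, c2, c3⟩ := V.van hD.1 hsm hF h
  exact c.bdc h.cpt h.sub h1 h2 c1 c2 c3

/-- **Existence of the limits.** -/
theorem all3 {J : ℝ} (hJ : 0 < J) {D : Set ℂ} (h : Lip3 D) (hs : IsConnected D) :
    AllLim D (crit J D none) := by
  obtain ⟨t, R0, hsm⟩ := P144Q.U.exists_small h.2.1
  refine P144Q.B.allLim_div R0 ?_
  have h' := P144Q.U.lip3_div R0 h
  have hs' : IsConnected ((fun z => z / (t : ℂ)) '' D) := hs.image _ (by fun_prop)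
  generalize (fun z => z / (t : ℂ)) '' D = D' at hsm h' hs'
  obtain ⟨Ω, rfl⟩ := dom3 h' hs' hsm
  obtain ⟨Ω', hΩ'⟩ := dom3 (P144Q.U.lip3_rc h') (hs'.image _ P144Q.U.rc_cont.continuousOn)
    (P144Q.U.small_rc hsm)
  have hF := lat3 h'
  exact E.asm hJ (fun _ hz => Ω.dia hz) hF
    (fun p hp => ⟨(G.k12 A.xj Ω _ hF p hp).1, (G.k12 A.xj Ω _ hF p hp).2, (C.k34 Ω _ hF p hp).1,
      (C.k34 Ω _ hF p hp).2⟩) (E.norm _ _ Ω.op Ω.small hF (B.ratio A.xj Ω Ω' hΩ' _ hF))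

end Vale.Agent.P144T
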