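import Vale.Agent.P144T.H2
import Vale.Agent.P144Q.Van
import Vale.Agent.P144.H436.Path2

/-!
Existence of the scaling limits in multiply connected domains: definitions, statements of the
blocks and elementary properties of the approximations.
-/

namespace Vale.Agent.P144T

open Filter Topology Metric Vale.Agent.P144
open Vale.Agent.P144.H170 (Pt pt nf CConv HD SLim Mk F2 gq gb PZ PO rM ev_nf ev_nf_of
  tendsto_fst_nf tendsto_pt_nf apos_nf a_nf pt_fl_norm)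

export Vale.Agent.P144Q (Uni jA jB jC jD Good0 Kn K1 K2 K3 K4 Mn Gn RatioM NormE fre Fat ball_Dia
  pt_sub_le lap_div)

/-- The finite sets `N k` approximate `D`. -/
structure Appr (D : Set ℂ) {ι : Type} (l : Filter ι) (a : ι → ℝ) (N : ι → Finset Site) :
    Prop where
  inn : ∀ z ∈ D, ∀ᶠ kx in nf l a z, kx.2 ∈ N kx.1
  sub : ∀ ε > (0 : ℝ), ∀ᶠ k in l, ∀ x ∈ N k, ∃ z ∈ D, ‖pt (a k) x - z‖ ≤ ε
  kc : ∃ r > (0 : ℝ), ∀ᶠ k in l, ∀ x ∉ N k, ∀ y ∉ N k, ‖pt (a k) x - pt (a k) y‖ ≤ r →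
    Kg (N k) x y

/-- `h` vanishes at some boundary point. -/
def Van (D : Set ℂ) (h : ℂ → ℝ) : Prop :=
  D.Nonempty → ∃ p ∈ closure D, p ∉ D ∧ ∀ ε > (0 : ℝ), ∀ᶠ z in 𝓝 p, z ∈ D → |h z| ≤ ε

/-- `h` is the limit of `H`-functions whose insertions lie in the compact set `K`. -/
structure HData (D : Set ℂ) {ι : Type} (l : Filter ι) (a : ι → ℝ) (N : ι → Finset Site)
    (Hs Hf : ι → Site → ℝ) (K : Set ℂ) (h : ℂ → ℝ) : Prop where
  ne : l.NeBot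
  a0 : Tendsto a l (𝓝[>] 0)
  ap : Appr D l a N
  cpt : IsCompact K
  sub : K ⊆ D
  hb : ∀ᶠ k in l, HB (N k) (Hs k) (Hf k)
  reg : ∀ z ∈ Dia \ K, ∀ᶠ kx in nf l a z, Reg (N kx.1) (Hs kx.1) (Hf kx.1) kx.2
  bdd : ∀ z ∈ Dia \ K, ∃ M, ∀ᶠ kx in nf l a z, Hs kx.1 kx.2 ≤ M ∧ -Hf kx.1 kx.2 ≤ M
  hs : CConv l a (D \ K) Hs h
  hf : CConv l a (D \ K) Hf h

/-- A small domain with its boundary condition. -/
structure Dom where
  D : Set ℂ
  Bd : (ℂ → ℂ) → Prop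
  op : IsOpen D
  small : D ⊆ ball 0 (1 / 4)
  conn : ∀ T : Set ℂ, T.Finite → IsPreconnected (D \ T)
  smul : ∀ (F F' : ℂ → ℂ) (t : ℝ) (T : Set ℂ), 0 ≤ t → T.Finite → T ⊆ D →
    (∀ z ∈ D, z ∉ T → F' z = t * F z) → Bd F → Bd F'
  zero : Bd fun _ => 0
  uni : Uni D Bd
  fat : Fat D
  van : ∀ {ι : Type} {l : Ultrafilter ι} {a : ι → ℝ} {N : ι → Finset Site} {Hs Hf : ι → Site → ℝ}
    {K : Set ℂ} {h : ℂ → ℝ}, HData D (l : Filter ι) a N Hs Hf K h → Van D h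
  bd : ∀ {ι : Type} {l : Ultrafilter ι} {a : ι → ℝ} {N : ι → Finset Site} {Hs Hf : ι → Site → ℝ}
    {K : Set ℂ} {h : ℂ → ℝ}, HData D (l : Filter ι) a N Hs Hf K h → ∀ F : ℂ → ℂ,
    DifferentiableOn ℂ F (D \ K) → (∀ z ∈ D \ K, HD h (fun w => H365.cH * F w) z) → Bd F

/-! ### The limits of spinors -/

section

variable {ι κ κ' : Type} [Fintype κ] [Fintype κ']

/-- Everything we know about the limit of a sequence of spinors. -/
structure GLim (Ω : Dom) (l : Filter ι) (a : ι → ℝ) (r : κ → ι → Site) (v : κ' → ι → Site)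
    (ζ : κ → ℂ) (ω : κ' → ℂ) (A B C E Hs Hf : ι → Pt → ℝ) (q : ℂ → ℂ) (h : ℂ → ℝ) : Prop where
  diff : DifferentiableOn ℂ q Ω.D
  slim : SLim l a (Ω.D \ Mk ζ ω) r v (fun k x => (√(a k))⁻¹ * A k x)
    (fun k x => (√(a k))⁻¹ * B k x) (fun k x => (√(a k))⁻¹ * C k x)
    (fun k x => (√(a k))⁻¹ * E k x) q
  hs : CConv l a (Ω.D \ Mk ζ ω) Hs h
  hf : CConv l a (Ω.D \ Mk ζ ω) Hf h
  hd : ∀ z ∈ Ω.D \ Mk ζ ω, HD h (gq ζ ω q) z
  up : ∃ M, 0 ≤ M ∧ ∀ z ∈ Ω.D \ Mk ζ ω, h z ≤ M * ∑ p, gb z (ω p)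
  bdc : Ω.Bd (F2 ζ ω q)
  resZ : ∀ p, (∀ p' ≠ p, ζ p' ≠ ζ p) → (∀ p', ω p' ≠ ζ p) →
    ((⟨-1 / 2, 1 / 2⟩ : ℂ) * (q (ζ p) ^ 2 / PZ ζ ω p (ζ p))).im = 0 ∧
    0 ≤ ((⟨-1 / 2, 1 / 2⟩ : ℂ) * (q (ζ p) ^ 2 / PZ ζ ω p (ζ p))).re
  resO : ∀ p, (∀ p', ζ p' ≠ ω p) → (∀ p' ≠ p, ω p' ≠ ω p) →
    ((⟨-1 / 2, 1 / 2⟩ : ℂ) * (q (ω p) ^ 2 / PO ζ ω p (ω p))).im = 0 ∧
    ((⟨-1 / 2, 1 / 2⟩ : ℂ) * (q (ω p) ^ 2 / PO ζ ω p (ω p))).re ≤ 0

end

/-- The limit of the spinor with one inserted spin. -/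
def SXj (Ω : Dom) : Prop := ∀ {ι κ : Type} [Fintype κ] {l : Ultrafilter ι} {a : ι → ℝ}
  {N : ι → Finset Site} {r : κ → ι → Site} {v : ι → Site} {ζ : κ → ℂ} {ω : ℂ},
  Tendsto a l (𝓝[>] 0) → Appr Ω.D (l : Filter ι) a N →
  (∀ p, Tendsto (fun k => pt (a k) (r p k)) l (𝓝 (ζ p))) →
  Tendsto (fun k => pt (a k) (v k)) l (𝓝 ω) → (∀ p, ζ p ∈ Ω.D) → ω ∈ Ω.D →
  (∀ᶠ k in l, Function.Injective fun p => r p k) → (∀ᶠ k in l, ∀ p, v k ∉ AL.cnr (r p k)) →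
  ∃ (Hs Hf : ι → Pt → ℝ) (q : ℂ → ℂ) (h : ℂ → ℝ),
    (∀ᶠ k in l, IsH (jA (N k) (fun p => r p k) (v k))
      (jB (N k) (fun p => r p k) (v k)) (jC (N k) (fun p => r p k) (v k))
      (jD (N k) (fun p => r p k) (v k)) (Hs k) (Hf k)) ∧
    GLim Ω (l : Filter ι) a r (fun _ : Unit => v) ζ (fun _ => ω)
      (fun k => jA (N k) (fun p => r p k) (v k)) (fun k => jB (N k) (fun p => r p k) (v k))
      (fun k => jC (N k) (fun p => r p k) (v k)) (fun k => jD (N k) (fun p => r p k) (v k))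
      Hs Hf q h

/-- The family `Λ` approximates `D`. -/
abbrev Fam0 (D : Set ℂ) (Λ : ℝ → Finset Site) : Prop := Appr D (𝓝[>] 0) (fun a => a) Λ

/-- Kernels with a source at a spin. -/
def SK12 : Prop := ∀ (Ω : Dom) (Λ : ℝ → Finset Site), Fam0 Ω.D Λ → ∀ p, Good0 Ω.D p →
  K1 Λ p ∧ K2 Λ p

/-- Kernels with a source at an energy. -/
def SK34 : Prop := ∀ (Ω : Dom) (Λ : ℝ → Finset Site), Fam0 Ω.D Λ → ∀ p, Good0 Ω.D p →
  K3 Λ p ∧ K4 Λ p

/-- The ratios. -/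
def SRat : Prop := ∀ Ω Ω' : Dom, Ω'.D = H436.rc '' Ω.D → ∀ Λ, Fam0 Ω.D Λ → RatioM Ω.D Λ

/-- The normalisation. -/
def SNorm : Prop := ∀ (D : Set ℂ) (Λ : ℝ → Finset Site), IsOpen D → D ⊆ ball 0 (1 / 4) →
  Fam0 D Λ → RatioM D Λ → NormE D Λ

theorem Dom.norm_lt (Ω : Dom) {z : ℂ} (hz : z ∈ Ω.D) : ‖z‖ < 1 / 4 := by
  simpa using Ω.small hz

theorem Dom.dia (Ω : Dom) {z : ℂ} (hz : z ∈ Ω.D) : z ∈ Dia :=
  ball_Dia (by linarith [Ω.norm_lt hz])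

section

variable {D : Set ℂ} {ι : Type} {l : Filter ι} {a : ι → ℝ} {N : ι → Finset Site}

theorem Appr.comp {ι' : Type} {l' : Filter ι'} {f : ι' → ι} (hN : Appr D l a N)
    (hf : Tendsto f l' l) : Appr D l' (fun k => a (f k)) (fun k => N (f k)) where
  inn := fun z hz => by
    obtain ⟨r, hr, h⟩ := (ev_nf (P := fun k x => x ∈ N k)).1 (hN.inn z hz)
    exact (ev_nf (P := fun k x => x ∈ N (f k))).2 ⟨r, hr, hf.eventually h⟩
  sub := fun ε hε => hf.eventually (hN.sub ε hε)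
  kc := hN.kc.imp fun _ h => ⟨h.1, hf.eventually h.2⟩

theorem Appr.mono {l' : Filter ι} (hN : Appr D l a N) (h : l' ≤ l) : Appr D l' a N :=
  hN.comp (f := fun k => k) h

/-- Near a point of `D` all sites are in `N`. -/
theorem Appr.near (ha : Tendsto a l (𝓝[>] 0)) (hN : Appr D l a N) {z : ℂ} (hz : z ∈ D) (m : ℕ) :
    ∀ᶠ kx in nf l a z, ∀ y : Pt, |y.1 - kx.2.1| ≤ m → |y.2 - kx.2.2| ≤ m → y ∈ N kx.1 := by
  obtain ⟨r, hr, h⟩ := (ev_nf (P := fun k x => x ∈ N k)).1 (hN.inn z hz)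
  refine (ev_nf (P := fun k x => ∀ y : Pt, |y.1 - x.1| ≤ m → |y.2 - x.2| ≤ m → y ∈ N k)).2
    ⟨r / 2, by positivity, ?_⟩
  have ha0 : Tendsto (fun k => 2 * (a k * m)) l (𝓝 (2 * (0 * m))) :=
    ((tendsto_nhds_of_tendsto_nhdsWithin ha).mul_const _).const_mul _
  rw [zero_mul, mul_zero] at ha0
  filter_upwards [h, ha0.eventually_lt_const (by positivity : (0:ℝ) < r / 2),
    ha.eventually self_mem_nhdsWithin] with k h1 h2 h3 x hx y e1 e2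
  refine h1 y ?_
  have := norm_sub_le_norm_sub_add_norm_sub (pt (a k) y) (pt (a k) x) z
  linarith [pt_sub_le h3 e1 e2]

/-- Sites with limits in `D` are deep inside. -/
theorem Appr.deep (ha : Tendsto a l (𝓝[>] 0)) (hN : Appr D l a N) {w : ι → Site} {c : ℂ}
    (hc : c ∈ D) (hw : Tendsto (fun k => pt (a k) (w k)) l (𝓝 c)) (m : ℕ) :
    ∀ᶠ k in l, ∀ y : Pt, |y.1 - (w k).1| ≤ m → |y.2 - (w k).2| ≤ m → y ∈ N k := by
  have h : Tendsto (fun k => (k, w k)) l (nf l a c) :=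
    tendsto_inf.2 ⟨tendsto_id.prodMk tendsto_top, tendsto_comap_iff.2 hw⟩
  exact h.eventually (hN.near ha hc m)

theorem Appr.mem (ha : Tendsto a l (𝓝[>] 0)) (hN : Appr D l a N) {w : ι → Site} {c : ℂ}
    (hc : c ∈ D) (hw : Tendsto (fun k => pt (a k) (w k)) l (𝓝 c)) : ∀ᶠ k in l, w k ∈ N k :=
  (hN.deep ha hc hw 0).mono fun k h => h _ (by simp) (by simp)

/-- The lattice points of a compact subset of `D` are in `N`. -/
theorem Appr.cpt (hN : Appr D l a N) {K : Set ℂ} (hK : IsCompact K) (hKD : K ⊆ D) :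
    ∀ᶠ k in l, ∀ x, pt (a k) x ∈ K → x ∈ N k := by
  have h : ∀ z ∈ K, ∃ U ∈ 𝓝[K] z, ∀ᶠ k in l, ∀ x, pt (a k) x ∈ U → x ∈ N k := by
    intro z hz
    obtain ⟨r, hr, h⟩ := (ev_nf (P := fun k x => x ∈ N k)).1 (hN.inn z (hKD hz))
    exact ⟨closedBall z r, mem_nhdsWithin_of_mem_nhds (closedBall_mem_nhds z hr),
      h.mono fun k hk x hx => hk x (by rwa [mem_closedBall, dist_eq_norm] at hx)⟩
  refine hK.induction_on (p := fun U => ∀ᶠ k in l, ∀ x, pt (a k) x ∈ U → x ∈ N k) (by simp)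
    (fun s t hst ht => ht.mono fun k hk x hx => hk x (hst hx)) (fun s t hs ht => ?_) h
  filter_upwards [hs, ht] with k h1 h2 x hx
  exact hx.elim (h1 x) (h2 x)

/-- The sets lie deep inside the diamond of the mesh. -/
theorem Appr.big (ha : Tendsto a l (𝓝[>] 0)) (hN : Appr D l a N) (hD : D ⊆ ball 0 (1 / 4))
    (m : ℕ) : ∀ᶠ k in l, ∀ x ∈ N k, |x.1| + |x.2| + m ≤ (H436.nn (a k) : ℤ) := by
  have ha0 : Tendsto (fun k => a k * (m + 1)) l (𝓝 (0 * (m + 1))) :=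
    (tendsto_nhds_of_tendsto_nhdsWithin ha).mul_const _
  rw [zero_mul] at ha0
  filter_upwards [hN.sub (1 / 12) (by norm_num), ha0.eventually_lt_const (by norm_num : (0:ℝ) < 1 / 3),
    ha.eventually self_mem_nhdsWithin] with k h1 h2 h3 x hx
  have h3 : 0 < a k := h3
  obtain ⟨z, hz, h4⟩ := h1 x hx
  have h5 : ‖z‖ < 1 / 4 := by simpa using hD hz
  have h6 : ‖pt (a k) x‖ ≤ 1 / 3 := by
    have := norm_add_le (pt (a k) x - z) z
    rw [sub_add_cancel] at this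
    linarith
  have h7 := (Complex.abs_re_le_norm (pt (a k) x)).trans h6
  have h8 := (Complex.abs_im_le_norm (pt (a k) x)).trans h6
  simp only [pt, abs_mul, abs_of_pos h3] at h7 h8
  have h9 : |(x.1 : ℝ)| + |(x.2 : ℝ)| + (m + 1) < 1 / a k := by
    rw [lt_div_iff₀ h3]; nlinarith
  have h10 := h9.trans_le (Nat.le_ceil _)
  have h11 : |x.1| + |x.2| + (m + 1) < (⌈1 / a k⌉₊ : ℤ) := by exact_mod_cast h10
  have := abs_nonneg x.1
  have := abs_nonneg x.2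
  unfold H436.nn
  lia

/-- Every outer site is connected to the centre of an outer disc. -/
theorem Appr.deepOut (ha : Tendsto a l (𝓝[>] 0)) (hN : Appr D l a N) (hD : IsOpen D)
    (hs : D ⊆ ball 0 (1 / 4)) (hF : Fat D) : ∃ ρ > (0 : ℝ), ∀ᶠ k in l, ∀ x ∉ N k, ∃ y,
      Kg (N k) x y ∧ ∀ u, ‖pt (a k) u - pt (a k) y‖ ≤ ρ → u ∉ N k ∧ ∀ z ∈ D,
        ρ ≤ ‖pt (a k) u - z‖ := by
  obtain ⟨κ, hκ, hκ1, r₀, hr₀, hF⟩ := P144Q.V.fat' hF
  obtain ⟨r, hr, hk⟩ := hN.kc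
  obtain ⟨s, s0, s1, s2⟩ : ∃ s > (0 : ℝ), s ≤ r₀ ∧ 4 * s ≤ r :=
    ⟨min r₀ (r / 4), by positivity, min_le_left _ _, by linarith [min_le_right r₀ (r / 4)]⟩
  have h1 : {x : ℂ | s ≤ infDist x Dᶜ} ⊆ D := fun x hx => by
    by_contra hc
    have : s ≤ infDist x Dᶜ := hx
    rw [infDist_zero_of_mem hc] at this
    linarith
  have h2 : IsCompact {x : ℂ | s ≤ infDist x Dᶜ} :=
    isCompact_of_isClosed_isBounded (isClosed_le continuous_const (continuous_infDist_pt _))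
      (isBounded_ball.subset (h1.trans hs))
  have hne : Dᶜ.Nonempty := ⟨1, fun h' => by
    have := hs h'
    norm_num at this⟩
  have k0 : κ * s ≤ s := mul_le_of_le_one_left s0.le hκ1
  have k1 : 0 < κ * s := by positivity
  refine ⟨κ * s / 4, by positivity, ?_⟩
  filter_upwards [hk, hN.cpt h2 h1, hN.sub (κ * s / 8) (by positivity),
    ha.eventually self_mem_nhdsWithin, (ha.mono_right nhdsWithin_le_nhds).eventually
      (gt_mem_nhds (show 0 < κ * s / 8 by positivity))] with k b1 b2 b3 b4 b5 x hx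
  obtain ⟨p, hp, c1⟩ := (infDist_lt_iff hne).1 (not_le.1 fun b => hx (b2 x b))
  obtain ⟨w, c2, c3⟩ := hF p hp s s0 s1
  have c4 := pt_fl_norm (a := a k) b4 w
  have key : ∀ u, ‖pt (a k) u - pt (a k) (fl (a k) w)‖ ≤ κ * s / 4 → u ∉ N k ∧ ∀ z ∈ D,
      κ * s / 4 ≤ ‖pt (a k) u - z‖ := by
    intro u hu
    have e : ∀ z ∈ D, κ * s / 4 ≤ ‖pt (a k) u - z‖ := fun z hz => by
      by_contra hc
      refine c3 z ?_ hz
      have d1 := norm_sub_le_norm_sub_add_norm_sub z (pt (a k) u) w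
      have d2 := norm_sub_le_norm_sub_add_norm_sub (pt (a k) u) (pt (a k) (fl (a k) w)) w
      rw [norm_sub_rev z (pt (a k) u)] at d1
      linarith [not_le.1 hc]
    refine ⟨fun b => ?_, e⟩
    obtain ⟨z, hz, d⟩ := b3 u b
    linarith [e z hz]
  refine ⟨fl (a k) w, b1 x hx _ (key _ (by rw [sub_self, norm_zero]; positivity)).1 ?_, key⟩
  rw [dist_eq_norm] at c1
  have d1 := norm_sub_le_norm_sub_add_norm_sub (pt (a k) x) p (pt (a k) (fl (a k) w))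
  have d2 := norm_sub_le_norm_sub_add_norm_sub p w (pt (a k) (fl (a k) w))
  rw [norm_sub_rev p w, norm_sub_rev w (pt _ _)] at d2
  linarith

/-- The values in the holes are bounded by the masses. -/
theorem Appr.holes (ha : Tendsto a l (𝓝[>] 0)) (hN : Appr D l a N) (hD : IsOpen D)
    (hs : D ⊆ ball 0 (1 / 4)) (hF : Fat D) : ∃ g ≥ (0 : ℝ), ∀ᶠ k in l,
      ∀ (Hs Hf U : Site → ℝ) (M : ℝ), HB (N k) Hs Hf → (∀ x ∉ N k, U x = Hs x) →
        (∀ T : Finset Site, ∑ w ∈ T, |AL.lap U w| ≤ M) → ∀ x ∉ N k, |Hs x| ≤ g * M := by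
  obtain ⟨ρ, hρ, hk⟩ := hN.deepOut ha hD hs hF
  have hlog2 : 0 < Real.log 2 := Real.log_pos (by norm_num)
  refine ⟨|Real.log (256 / ρ ^ 2)| / (4 * Real.log 2), by positivity, ?_⟩
  filter_upwards [hk, hN.big ha hs 0, ha.eventually self_mem_nhdsWithin,
    (ha.mono_right nhdsWithin_le_nhds).eventually (gt_mem_nhds (show 0 < ρ / 4 by positivity)),
    (H436.nn_lim ha).eventually (gt_mem_nhds one_lt_two)] with k b1 b2 b3 b4 b5 Hs Hf U M hb hU hM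
      x hx
  have b3 : 0 < a k := b3
  obtain ⟨y, c1, c2⟩ := b1 x hx
  rw [← (hb.kg hx c1).2, ← hU y (hb.kg hx c1).1]
  have hd : ∀ x ∉ dia (H436.nn (a k)), x ∉ N k ∧ Hs x = 0 := fun x hx => by
    rw [AL.mem_dia] at hx
    exact ⟨fun b => hx (by simpa using b2 x b),
      hb.dia (fun y hy => by simpa using b2 y hy) (not_le.1 hx)⟩
  have hU0 : ∀ x ∉ dia (H436.nn (a k)), U x = 0 := fun x hx => (hU x (hd x hx).1).trans (hd x hx).2
  by_cases hy : y ∈ dia (H436.nn (a k))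
  swap
  · rw [hU0 y hy, abs_zero]
    have : 0 ≤ M := by simpa using hM ∅
    positivity
  refine hole hU0 hM (by positivity) fun w hw => ?_
  by_cases hwd : w ∈ dia (H436.nn (a k))
  swap
  · rw [H436.green_out hwd]; positivity
  have c3 : ρ / 2 < ‖pt (a k) w - pt (a k) y‖ := by
    by_contra hc
    have o : ∀ u : Site, |u.1 - w.1| ≤ 1 → |u.2 - w.2| ≤ 1 → u ∉ N k := fun u e1 e2 => (c2 u (by
      linarith [norm_sub_le_norm_sub_add_norm_sub (pt (a k) u) (pt (a k) w) (pt (a k) y),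
        P144Q.V.king b3 e1 e2, not_lt.1 hc])).1
    have e : ∀ u : Site, |u.1 - w.1| ≤ 1 → |u.2 - w.2| ≤ 1 → U u = Hs w := fun u e1 e2 => by
      rw [hU u (o u e1 e2)]
      exact le_antisymm (hb.kle (o u e1 e2) e1 e2) (hb.kle (o w (by simp) (by simp))
        (by rwa [abs_sub_comm]) (by rwa [abs_sub_comm]))
    refine hw ?_
    unfold AL.lap
    rw [e w (by simp) (by simp), e (w.1 + 1, w.2) (by simp) (by simp),
      e (w.1 - 1, w.2) (by simp) (by simp), e (w.1, w.2 + 1) (by simp) (by simp),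
      e (w.1, w.2 - 1) (by simp) (by simp)]
    ring
  refine (H436.green_dia_log hy hwd).trans (div_le_div_of_nonneg_right ?_ (by positivity))
  have hx : 0 < ((w.1 : ℝ) - y.1) ^ 2 + ((w.2 : ℝ) - y.2) ^ 2 + 1 := by positivity
  rw [← Real.log_div (by positivity) hx.ne']
  refine (Real.log_le_log (by positivity) ?_).trans (le_abs_self _)
  have e1 : ‖pt (a k) w - pt (a k) y‖ ^ 2 =
      a k ^ 2 * (((w.1 : ℝ) - y.1) ^ 2 + ((w.2 : ℝ) - y.2) ^ 2) := by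
    rw [Complex.sq_norm, Complex.normSq_apply]
    simp only [pt, Complex.sub_re, Complex.sub_im]
    ring
  have e2 : (ρ / 2) ^ 2 ≤ ‖pt (a k) w - pt (a k) y‖ ^ 2 := by gcongr
  have e3 : (a k * ((H436.nn (a k) : ℝ) + 1)) ^ 2 ≤ 2 ^ 2 := by gcongr
  rw [div_le_div_iff₀ hx (by positivity)]
  refine le_of_mul_le_mul_left ?_ (show 0 < a k ^ 2 by positivity)
  have e4 := mul_le_mul e3 (e2.trans_eq e1) (by positivity) (by positivity)
  nlinarith [sq_nonneg (a k)]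

end

end Vale.Agent.P144T
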