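import Vale.Agent.P144T.Defs
import Vale.Agent.P144.H170.Glue

/-!
The limit of the spinor with one inserted spin in a general domain: normalisation, values at the
disorders, uniqueness.
-/

namespace Vale.Agent.P144T.G

open Filter Topology Complex Metric Vale.Agent.P144 Vale.Agent.P144.H170

variable {Ω : Dom}

/-- Uniqueness for two solutions. -/
theorem cont_unique {κ κ' : Type} [Fintype κ] [Fintype κ'] {ζ : κ → ℂ} {ω : κ' → ℂ}
    {q1 q2 : ℂ → ℂ} (hζ : ∀ p, ζ p ∈ Ω.D) (hω : ∀ p, ω p ∈ Ω.D)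
    (hinj : Function.Injective (Sum.elim ζ ω))
    (h1 : DifferentiableOn ℂ q1 Ω.D) (h2 : DifferentiableOn ℂ q2 Ω.D)
    (b1 : Ω.Bd (F2 ζ ω q1)) (b2 : Ω.Bd (F2 ζ ω q2))
    (r1 : ∀ p, H365.ResNN ζ ω q1 (ζ p)) (r2 : ∀ p, H365.ResNN ζ ω q2 (ζ p))
    (hs : ∀ p, q1 (ω p) = q2 (ω p)) : ∀ z ∈ Ω.D, q1 z = q2 z := by
  have := Ω.uni κ κ' ζ ω (fun z => q1 z - q2 z) q1 q2 ∅ hζ hω hinj Set.finite_empty
    (Set.empty_subset _) (fun z hz => absurd hz (Set.notMem_empty z)) (h1.sub h2)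
    (fun z _ _ => rfl) (fun p => (h1.differentiableAt (Ω.op.mem_nhds (hζ p))).continuousAt)
    (fun p => (h2.differentiableAt (Ω.op.mem_nhds (hζ p))).continuousAt) b1 b2 r1 r2
    (fun p => sub_eq_zero.2 (hs p))
  exact fun z hz => sub_eq_zero.1 (this z hz)

section sol

variable {κ : Type} [Fintype κ]

/-- The limits of the spinors with one inserted spin at `ω`. -/
structure Sol (Ω : Dom) (ζ : κ → ℂ) (ω : ℂ) (q : ℂ → ℂ) : Prop where
  diff : DifferentiableOn ℂ q Ω.D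
  bd : Ω.Bd (F2 ζ (fun _ : Unit => ω) q)
  res : ∀ p, H365.ResNN ζ (fun _ : Unit => ω) q (ζ p)
  src : (Real.pi / 2 : ℂ) * (1 - I) * q ω ^ 2 = ∏ p, (ω - ζ p)

variable {ζ : κ → ℂ} {ω : ℂ}

/-- The solution is unique up to the sign. -/
theorem sol_unique (hζ : ∀ p, ζ p ∈ Ω.D) (hω : ω ∈ Ω.D) (hinj : Function.Injective ζ)
    (hne : ∀ p, ζ p ≠ ω) {q1 q2 : ℂ → ℂ} (h1 : Sol Ω ζ ω q1) (h2 : Sol Ω ζ ω q2) :
    (∀ z ∈ Ω.D, q1 z = q2 z) ∨ ∀ z ∈ Ω.D, q1 z = -q2 z := by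
  have hinj' : Function.Injective (Sum.elim ζ fun _ : Unit => ω) := by
    rintro (x | x) (y | y) h
    · exact congrArg Sum.inl (hinj h)
    · exact absurd h (hne x)
    · exact absurd h.symm (hne y)
    · rfl
  have hsq : q1 ω ^ 2 = q2 ω ^ 2 := by
    have h := h1.src.trans h2.src.symm
    refine mul_left_cancel₀ (mul_ne_zero ?_ one_sub_I_ne) h
    have : (Real.pi : ℂ) ≠ 0 := by exact_mod_cast Real.pi_ne_zero
    exact div_ne_zero this two_ne_zero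
  rcases sq_eq_sq_iff_eq_or_eq_neg.1 hsq with h | h
  · left
    exact cont_unique hζ (fun _ => hω) hinj' h1.diff h2.diff h1.bd h2.bd h1.res h2.res
      fun _ => h
  · right
    refine cont_unique (q2 := fun z => -q2 z) hζ (fun _ => hω) hinj' h1.diff h2.diff.neg h1.bd
      ?_ h1.res (fun p => ?_) fun _ => h
    · rw [F2_neg]; exact h2.bd
    · obtain ⟨c, hc, hl⟩ := h2.res p
      exact ⟨c, hc, by rw [gq_neg]; exact hl⟩

end sol

section res

variable {ι κ κ' : Type} [Fintype κ] [Fintype κ'] {l : Filter ι} {a : ι → ℝ}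
  {r : κ → ι → Site} {v : κ' → ι → Site} {ζ : κ → ℂ} {ω : κ' → ℂ}
  {A B C E Hs Hf : ι → Pt → ℝ} {q : ℂ → ℂ} {h : ℂ → ℝ}

theorem resNN (hζ : ∀ p, ζ p ∈ Ω.D) (hG : GLim Ω l a r v ζ ω A B C E Hs Hf q h) {p : κ}
    (h1 : ∀ p' ≠ p, ζ p' ≠ ζ p) (h2 : ∀ q, ω q ≠ ζ p) : H365.ResNN ζ ω q (ζ p) := by
  obtain ⟨k1, k2⟩ := hG.resZ p h1 h2
  refine ⟨_, k2, ?_⟩
  rw [← eq_re k1]
  have hc : ContinuousAt q (ζ p) :=
    (hG.diff.differentiableAt (Ω.op.mem_nhds (hζ p))).continuousAt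
  have h3 : ContinuousAt (fun z => (⟨-1 / 2, 1 / 2⟩ : ℂ) * (q z ^ 2 / PZ ζ ω p z)) (ζ p) :=
    continuousAt_const.mul ((hc.pow 2).div (PZ_cont p).continuousAt (PZ_ne h1 h2))
  refine (h3.tendsto.mono_left nhdsWithin_le_nhds).congr' ?_
  filter_upwards [self_mem_nhdsWithin] with z hz
  have hz' : z - ζ p ≠ 0 := sub_ne_zero.2 hz
  unfold gq
  rw [PP_eqZ p]
  by_cases hp : PZ ζ ω p z = 0
  · rw [hp]; simp
  · field_simp

end res

section pack

variable {ι κ : Type} [Fintype κ] [DecidableEq κ]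

/-- The spinor with one inserted spin converges. -/
structure Pack (Ω : Dom) (l : Filter ι) (a : ι → ℝ) (N : ι → Finset Site)
    (r : κ → ι → Site) (v : ι → Site) (ζ : κ → ℂ) (ω : ℂ) (q : ℂ → ℂ) : Prop where
  sol : Sol Ω ζ ω q
  slim : SLim l a (Ω.D \ Mk ζ fun _ : Unit => ω) r (fun _ : Unit => v)
    (fun k x => (√(a k))⁻¹ * jA (N k) (fun p => r p k) (v k) x)
    (fun k x => (√(a k))⁻¹ * jB (N k) (fun p => r p k) (v k) x)
    (fun k x => (√(a k))⁻¹ * jC (N k) (fun p => r p k) (v k) x)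
    (fun k x => (√(a k))⁻¹ * jD (N k) (fun p => r p k) (v k) x) q
  src : Tendsto (fun k => ∏ p, rtu (pos (a k) (v k) (1 / 4) (1 / 4) - cF (a k) (r p k))) l
    (𝓝 ((√(2 * Real.pi) / 2 : ℝ) * (H365.c0 * q ω)))
  disA : ∀ p, Tendsto (fun k => (∏ p' : {p' // p' ≠ p},
      rtu (pos (a k) (r p k) (1 / 4) (1 / 4) - cF (a k) (r p' k))) *
      rtd (pos (a k) (r p k) (1 / 4) (1 / 4) - pt (a k) (v k)) *
      (jA (N k) (fun p => r p k) (v k) (r p k) : ℂ)) l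
    (𝓝 ((√(2 * Real.pi) / 2 : ℝ) * (H365.c0 * (I * q (ζ p)))))
  disE : ∀ p, Tendsto (fun k => (∏ p' : {p' // p' ≠ p},
      rtu (pos (a k) (r p k) (3 / 4) (3 / 4) - cF (a k) (r p' k))) *
      rtd (pos (a k) (r p k) (3 / 4) (3 / 4) - pt (a k) (v k)) *
      (jD (N k) (fun p => r p k) (v k) (r p k) : ℂ)) l
    (𝓝 ((√(2 * Real.pi) / 2 : ℝ) * (H365.c0 * (I * q (ζ p)))))
  T5 : Tendsto (fun k => (a k)⁻¹ * (jD (N k) (fun p => r p k) (v k) (v k - (1, 1)) - 1)) l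
    (𝓝 (-(Real.pi / 4) * (deriv (fun z => q z ^ 2 / ∏ p, (z - ζ p)) ω).re))

variable {a : ι → ℝ} {N : ι → Finset Site} {r : κ → ι → Site} {v : ι → Site} {ζ : κ → ℂ} {ω : ℂ}

omit [DecidableEq κ] in
theorem spr_jX {r : κ → Site} {v : Site} {Λ : Finset Site} (h : v ∈ Λ) :
    AL.Spr Λ (tauF r) (theF fun _ : Unit => v) (jA Λ r v) (jB Λ r v) (jC Λ r v)
      (jD Λ r v) := by
  have h1 := AL.spr_QQ (Λ := Λ) (rM r) (A := {v}) (by
    intro x hx
    rw [Multiset.mem_singleton] at hx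
    subst hx
    exact h) (AL.zj Λ (rM r) v)
  rw [tauR_rM, theA_single] at h1
  exact h1

omit [DecidableEq κ] in
theorem relOn_jX {l : Filter ι} (ha : Tendsto a l (𝓝[>] 0)) (hN : Appr Ω.D l a N)
    (hv : Tendsto (fun k => pt (a k) (v k)) l (𝓝 ω)) (hω : ω ∈ Ω.D) :
    RelOn l a Ω.D r (fun _ : Unit => v) (fun k => jA (N k) (fun p => r p k) (v k))
      (fun k => jB (N k) (fun p => r p k) (v k)) (fun k => jC (N k) (fun p => r p k) (v k))
      (fun k => jD (N k) (fun p => r p k) (v k)) := by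
  intro z hz
  filter_upwards [ev_nf_of (l := l) (a := a) (z := z) (hN.mem ha hω hv), hN.near ha hz 1]
    with kx hk g2
  obtain ⟨k, x, y⟩ := kx
  have g1 := SRel.of_spr (spr_jX (r := fun p => r p k) hk) x y
  simp only at g2
  have m1 := g2 (x, y + 1) (by simp) (by simp)
  have m2 := g2 (x + 1, y + 1) (by simp) (by simp)
  have m3 := g2 (x + 1, y) (by simp) (by simp)
  have k1 := g1.V m1 m2
  have k2 := g1.H m3 m2
  unfold H170.Rel
  simp only [Prod.mk_add_mk, add_zero]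
  exact ⟨k1.1, k1.2, k2.1, k2.2⟩

variable {l : Ultrafilter ι} (ha : Tendsto a l (𝓝[>] 0))
  (hN : Appr Ω.D (l : Filter ι) a N)
  (hr : ∀ p, Tendsto (fun k => pt (a k) (r p k)) l (𝓝 (ζ p)))
  (hv : Tendsto (fun k => pt (a k) (v k)) l (𝓝 ω))

section exist

omit [DecidableEq κ] in
include ha hN hv in
theorem ev_self (hω : ω ∈ Ω.D) :
    ∀ᶠ k in (l : Filter ι), jA (N k) (fun p => r p k) (v k) (v k) = 1 := by
  filter_upwards [hN.mem ha hω hv] with k hk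
  exact AL.xA_self _ _ _ hk

/-- The data of the limit of the spinor with one inserted spin. -/
abbrev JLim (Ω : Dom) (l : Filter ι) (a : ι → ℝ) (N : ι → Finset Site)
    (r : κ → ι → Site) (v : ι → Site) (ζ : κ → ℂ) (ω : ℂ) (Hs Hf : ι → Pt → ℝ) (q : ℂ → ℂ) (h : ℂ → ℝ) : Prop :=
  GLim Ω l a r (fun _ : Unit => v) ζ (fun _ => ω)
    (fun k => jA (N k) (fun p => r p k) (v k)) (fun k => jB (N k) (fun p => r p k) (v k))
    (fun k => jC (N k) (fun p => r p k) (v k)) (fun k => jD (N k) (fun p => r p k) (v k)) Hs Hf q h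

variable {Hs Hf : ι → Pt → ℝ} {q : ℂ → ℂ} {h : ℂ → ℝ}

include ha hN hr hv

omit [DecidableEq κ] in
theorem gl_gs (hω : ω ∈ Ω.D) {S : κ → Prop} {S' : {q : Unit // q ≠ ()} → Prop}
    (hS : ω ∈ VS S S' ζ fun _ => ω) (hG : JLim Ω l a N r v ζ ω Hs Hf q h) :
    Tendsto (fun k => gs S S' (fun p => r p k) (fun _ : {q : Unit // q ≠ ()} => v k)
      (((v k).1 : ℝ) + 1 / 4)) l (𝓝 (√(2 * Real.pi) / 2 *
      (H365.c0 * gloc (ζ := ζ) (ω := fun _ : Unit => ω) () S S' q 0).re)) := by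
  have t1 := tip_spin (q0 := ()) ha hr (fun _ => hv) Ω.op hω hS
    (relOn_jX (r := r) ha hN hv hω) hG.slim.A hG.diff
  refine t1.congr' ?_
  filter_upwards [ev_self (r := r) ha hN hv hω] with k hk
  have e1 : v k + ((0:ℤ), (0:ℤ)) = v k := by ext <;> simp
  unfold gX GV
  rw [e1]
  show _ * jA (N k) (fun p => r p k) (v k) (v k) = _
  rw [hk, mul_one]

omit [DecidableEq κ] ha hN hr hv in
theorem gl_im (hne : ∀ p, ζ p ≠ ω) (hG : JLim Ω l a N r v ζ ω Hs Hf q h) (S : κ → Prop)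
    (S' : {q : Unit // q ≠ ()} → Prop) :
    (H365.c0 * gloc (ζ := ζ) (ω := fun _ : Unit => ω) () S S' q 0).im = 0 :=
  real_src (S := S) (S' := S') (q0 := ()) (hG.resO () hne (fun _ hq => absurd rfl hq))

omit [DecidableEq κ] in
theorem gl_src (hω : ω ∈ Ω.D) (hne : ∀ p, ζ p ≠ ω) (hG : JLim Ω l a N r v ζ ω Hs Hf q h) :
    Tendsto (fun k => ∏ p, rtu (pos (a k) (v k) (1 / 4) (1 / 4) - cF (a k) (r p k))) l
      (𝓝 ((√(2 * Real.pi) / 2 : ℝ) * (H365.c0 * q ω))) := by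
  obtain ⟨S, S', hS⟩ := exists_patR (ζ := ζ) (ω := fun _ : Unit => ω) () (fun p => (hne p).symm)
    (fun q hq => absurd rfl hq)
  have t2 := gl_gs ha hN hr hv hω hS hG
  have him := gl_im hne hG S S'
  have hgl : gloc (ζ := ζ) (ω := fun _ : Unit => ω) () S S' q 0 * RS S S' ζ (fun _ => ω) ω = q ω := by
    unfold gloc
    rw [add_zero, div_mul_cancel₀ _ (RS_ne hS)]
  have t3 := ((continuous_ofReal.tendsto _).comp t2).mul (src_prod ha hr hv hS)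
  have e1 : ((√(2 * Real.pi) / 2 *
      (H365.c0 * gloc (ζ := ζ) (ω := fun _ : Unit => ω) () S S' q 0).re : ℝ) : ℂ) *
      RS S S' ζ (fun _ => ω) ω = (√(2 * Real.pi) / 2 : ℝ) * (H365.c0 * q ω) := by
    rw [ofReal_mul, ← eq_re him, ← hgl]; ring
  rw [e1] at t3
  refine t3.congr fun k => ?_
  simp only [Function.comp_apply]
  rw [← mul_assoc, gg_one, one_mul]

omit [DecidableEq κ] in
theorem gl_sol (hζ : ∀ p, ζ p ∈ Ω.D) (hω : ω ∈ Ω.D) (hinj : Function.Injective ζ)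
    (hne : ∀ p, ζ p ≠ ω) (hG : JLim Ω l a N r v ζ ω Hs Hf q h) : Sol Ω ζ ω q :=
  ⟨hG.diff, hG.bdc, fun p => resNN hζ hG (fun _ hp' hh => hp' (hinj hh))
      (fun _ => (hne p).symm), gl_norm ha hr hv (gl_src ha hN hr hv hω hne hG)⟩

theorem gl_disA (hζ : ∀ p, ζ p ∈ Ω.D) (hω : ω ∈ Ω.D) (hinj : Function.Injective ζ)
    (hne : ∀ p, ζ p ≠ ω) (hG : JLim Ω l a N r v ζ ω Hs Hf q h) (p : κ) :
    Tendsto (fun k => (∏ p' : {p' // p' ≠ p},
      rtu (pos (a k) (r p k) (1 / 4) (1 / 4) - cF (a k) (r p' k))) *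
      rtd (pos (a k) (r p k) (1 / 4) (1 / 4) - pt (a k) (v k)) *
      (jA (N k) (fun p => r p k) (v k) (r p k) : ℂ)) l
    (𝓝 ((√(2 * Real.pi) / 2 : ℝ) * (H365.c0 * (I * q (ζ p))))) := by
  have h0 : ∀ᶠ k in (l : Filter ι), 0 < a k := ha.eventually self_mem_nhdsWithin
  obtain ⟨S, S', hS⟩ := exists_patF (ζ := ζ) (ω := fun _ : Unit => ω) p
    (fun p' hp' hh => hp' (hinj hh).symm) (fun _ => hne p)
  have t1 := tip_disA (p0 := p) ha hr (fun _ => hv) Ω.op (hζ p) hS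
    (relOn_jX (r := r) ha hN hv hω) hG.slim.A hG.diff
  have him := real_dis (S := S) (S' := S') (p0 := p) (hG.resZ p
    (fun p' hp' hh => hp' (hinj hh)) (fun _ => (hne p).symm))
  have t2 := (RS_lim ha (fun p' : {p' // p' ≠ p} => hr p') (fun _ : Unit => hv) hS (1 / 4)
    (1 / 4)).comp (tendsto_self (hr p))
  have t3 := ((continuous_ofReal.tendsto _).comp t1).mul t2
  have hgl : glocF (ζ := ζ) (ω := fun _ : Unit => ω) p S S' q 0 *
      RS S S' (fun p => ζ p) (fun _ => ω) (ζ p) = I * q (ζ p) := by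
    unfold glocF
    rw [add_zero, mul_assoc, div_mul_cancel₀ _ (RS_ne hS)]
  have e1 : ((√(2 * Real.pi) / 2 *
      (H365.c0 * glocF (ζ := ζ) (ω := fun _ : Unit => ω) p S S' q 0).re : ℝ) : ℂ) *
      RS S S' (fun p => ζ p) (fun _ => ω) (ζ p) =
      (√(2 * Real.pi) / 2 : ℝ) * (H365.c0 * (I * q (ζ p))) := by
    rw [ofReal_mul, ← eq_re him, ← hgl]; ring
  rw [e1] at t3
  refine t3.congr' ?_
  filter_upwards [h0] with k hk
  have h2 := RR_eq S S' hk (fun p' : {p' // p' ≠ p} => r p' k) (fun _ : Unit => v k) (r p k)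
    (Or.inl rfl : (1 / 4 : ℝ) = 1 / 4 ∨ (1 / 4 : ℝ) = 3 / 4) (1 / 4)
  unfold RR at h2
  rw [unit_prod'] at h2
  beta_reduce at h2
  simp only [Function.comp_apply]
  rw [h2]
  push_cast
  ring

theorem gl_disE (hζ : ∀ p, ζ p ∈ Ω.D) (hω : ω ∈ Ω.D) (hinj : Function.Injective ζ)
    (hne : ∀ p, ζ p ≠ ω) (hG : JLim Ω l a N r v ζ ω Hs Hf q h) (p : κ) :
    Tendsto (fun k => (∏ p' : {p' // p' ≠ p},
      rtu (pos (a k) (r p k) (3 / 4) (3 / 4) - cF (a k) (r p' k))) *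
      rtd (pos (a k) (r p k) (3 / 4) (3 / 4) - pt (a k) (v k)) *
      (jD (N k) (fun p => r p k) (v k) (r p k) : ℂ)) l
    (𝓝 ((√(2 * Real.pi) / 2 : ℝ) * (H365.c0 * (I * q (ζ p))))) := by
  have h0 : ∀ᶠ k in (l : Filter ι), 0 < a k := ha.eventually self_mem_nhdsWithin
  obtain ⟨S, S', hS⟩ := exists_patF (ζ := ζ) (ω := fun _ : Unit => ω) p
    (fun p' hp' hh => hp' (hinj hh).symm) (fun _ => hne p)
  have t1 := tip_dis (p0 := p) ha hr (fun _ => hv) Ω.op (hζ p) hS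
    (relOn_jX (r := r) ha hN hv hω) hG.slim.E hG.diff
  have him := real_dis (S := S) (S' := S') (p0 := p) (hG.resZ p
    (fun p' hp' hh => hp' (hinj hh)) (fun _ => (hne p).symm))
  have t2 := (RS_lim ha (fun p' : {p' // p' ≠ p} => hr p') (fun _ : Unit => hv) hS (3 / 4)
    (3 / 4)).comp (tendsto_self (hr p))
  have t3 := ((continuous_ofReal.tendsto _).comp t1).mul t2
  have hgl : glocF (ζ := ζ) (ω := fun _ : Unit => ω) p S S' q 0 *
      RS S S' (fun p => ζ p) (fun _ => ω) (ζ p) = I * q (ζ p) := by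
    unfold glocF
    rw [add_zero, mul_assoc, div_mul_cancel₀ _ (RS_ne hS)]
  have e1 : ((√(2 * Real.pi) / 2 *
      (H365.c0 * glocF (ζ := ζ) (ω := fun _ : Unit => ω) p S S' q 0).re : ℝ) : ℂ) *
      RS S S' (fun p => ζ p) (fun _ => ω) (ζ p) =
      (√(2 * Real.pi) / 2 : ℝ) * (H365.c0 * (I * q (ζ p))) := by
    rw [ofReal_mul, ← eq_re him, ← hgl]; ring
  rw [e1] at t3
  refine t3.congr' ?_
  filter_upwards [h0] with k hk
  have h2 := RR_eq S S' hk (fun p' : {p' // p' ≠ p} => r p' k) (fun _ : Unit => v k) (r p k)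
    (Or.inr rfl : (3 / 4 : ℝ) = 1 / 4 ∨ (3 / 4 : ℝ) = 3 / 4) (3 / 4)
  unfold RR at h2
  rw [unit_prod'] at h2
  beta_reduce at h2
  have h4 : H170.sg ((((r p k).1 : ℤ) : ℝ) + 3 / 4 - (r p k).1 - 1 / 2) = 1 := sg_pos (by linarith)
  simp only [Function.comp_apply]
  unfold fX GF
  beta_reduce
  rw [h2, h4]
  push_cast
  ring

omit [DecidableEq κ] in
theorem gl_T5 (hω : ω ∈ Ω.D) (hne : ∀ p, ζ p ≠ ω) (hG : JLim Ω l a N r v ζ ω Hs Hf q h) :
    Tendsto (fun k => (a k)⁻¹ * (jD (N k) (fun p => r p k) (v k) (v k - (1, 1)) - 1)) l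
    (𝓝 (-(Real.pi / 4) * (deriv (fun z => q z ^ 2 / ∏ p, (z - ζ p)) ω).re)) := by
  obtain ⟨S, S', hS⟩ := exists_patR (ζ := ζ) (ω := fun _ : Unit => ω) () (fun p => (hne p).symm)
    (fun q hq => absurd rfl hq)
  have t2 := gl_gs ha hN hr hv hω hS hG
  have him := gl_im hne hG S S'
  have t5 := tip_T5 (q0 := ()) ha hr (fun _ => hv) Ω.op hω hS
    (relOn_jX (r := r) ha hN hv hω) hG.slim.A hG.slim.E hG.diff
  have t6 := t2.mul t5
  rw [T5_const (hG.diff.differentiableAt (Ω.op.mem_nhds hω)) hS him] at t6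
  refine t6.congr' ?_
  filter_upwards [ev_self (r := r) ha hN hv hω] with k hk
  have e1 : v k + ((0:ℤ), (0:ℤ)) = v k := by ext <;> simp
  have e2 : v k + (-((0:ℤ)) - 1, -((0:ℤ)) - 1) = v k - (1, 1) := by
    ext
    · simp; ring
    · simp; ring
  have h3 := gs_sq S S' (fun p => r p k) (fun _ : {q : Unit // q ≠ ()} => v k)
    (((v k).1 : ℝ) + 1 / 4)
  have e3 : ((((v k - ((1:ℤ), (1:ℤ))).1 : ℤ)) : ℝ) + 3 / 4 = ((v k).1 : ℝ) - 1 / 4 := by
    simp only [Prod.fst_sub]; push_cast; ring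
  have e4 : H365.sgn 0 = 1 := by unfold H365.sgn; rw [if_neg (lt_irrefl _)]
  unfold H365.Em gX GV
  simp only
  rw [e1, e2, e3, e4]
  show gs S S' (fun p => r p k) (fun _ : {q : Unit // q ≠ ()} => v k) (((v k).1 : ℝ) + 1 / 4) *
    ((a k)⁻¹ * (1 * (gs S S' (fun p => r p k) (fun _ : {q : Unit // q ≠ ()} => v k)
      (((v k).1 : ℝ) - 1 / 4) * jD (N k) (fun p => r p k) (v k) (v k - (1, 1))) -
      gs S S' (fun p => r p k) (fun _ : {q : Unit // q ≠ ()} => v k) (((v k).1 : ℝ) + 1 / 4) *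
      jA (N k) (fun p => r p k) (v k) (v k))) = _
  rw [hk, gs_src]
  linear_combination ((a k)⁻¹ * (jD (N k) (fun p => r p k) (v k) (v k - (1, 1)) - 1)) * h3

/-- **Convergence of the spinor with one inserted spin.** -/
theorem pack_exists (hX : SXj Ω) (hζ : ∀ p, ζ p ∈ Ω.D) (hω : ω ∈ Ω.D) (hinj : Function.Injective ζ)
    (hne : ∀ p, ζ p ≠ ω) : ∃ q, Pack Ω l a N r v ζ ω q := by
  obtain ⟨Hs, Hf, q, h, -, hG⟩ := hX ha hN hr hv hζ hω (ev_inj ha hr hinj)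
    (ev_cnr ha hr hv hne)
  exact ⟨q, gl_sol ha hN hr hv hζ hω hinj hne hG, hG.slim, gl_src ha hN hr hv hω hne hG,
    gl_disA ha hN hr hv hζ hω hinj hne hG, gl_disE ha hN hr hv hζ hω hinj hne hG,
    gl_T5 ha hN hr hv hω hne hG⟩

end exist

end pack

end Vale.Agent.P144T.G
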