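import Vale.Agent.P144S.M.Cut2

/-!
The `H`-function of a spinor in an arbitrary finite set: the identities at inner sites and faces.
-/

namespace Vale.Agent.P144T

open Finset Vale.Agent.P144
open Vale.Agent.P144.AL hiding IsH

/-- `Hs` on spins and `Hf` on faces is the `H`-function of the spinor. -/
structure IsH (A B C D Hs Hf : Site → ℝ) : Prop where
  a : ∀ i j : ℤ, Hs (i, j) - Hf (i, j) = A (i, j) ^ 2
  b : ∀ i j : ℤ, Hs (i + 1, j) - Hf (i, j) = B (i, j) ^ 2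
  c : ∀ i j : ℤ, Hs (i, j + 1) - Hf (i, j) = C (i, j) ^ 2
  d : ∀ i j : ℤ, Hs (i + 1, j + 1) - Hf (i, j) = D (i, j) ^ 2
  far : ∃ M : ℕ, ∀ v ∉ box M, Hs v = 0

section

variable {Λ : Finset Site} {τ θ A B C D Hs Hf : Site → ℝ} (h : Spr Λ τ θ A B C D)
  (hH : IsH A B C D Hs Hf)

include h hH

/-- Differences of `Hs` along an edge in terms of the values at the first end. -/
theorem dN {i j : ℤ} (he : ((i, j) : Site) ∈ ver Λ) :
    Hs (i, j + 1) - Hs (i, j) = A (i, j) ^ 2 + B (i - 1, j) ^ 2 -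
      2 * √2 * (θ (i - 1, j) * (A (i, j) * B (i - 1, j))) := by
  have e1 := h.H (i - 1) j (by rwa [sub_add_cancel])
  rw [sub_add_cancel] at e1
  have e2 := hH.c i j
  have e3 := hH.a i j
  have e4 : C (i, j) = √2 * A (i, j) - θ (i - 1, j) * B (i - 1, j) := by
    rw [e1.1]; linear_combination (√2 * A (i, j) - C (i, j)) * h.θ2 (i - 1, j)
  have e5 : Hs (i, j + 1) - Hs (i, j) = C (i, j) ^ 2 - A (i, j) ^ 2 := by linarith
  rw [e5, e4]
  linear_combination (A (i, j) ^ 2) * sqrt2_sq + (B (i - 1, j) ^ 2) * h.θ2 (i - 1, j)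

theorem dS {i j : ℤ} (he : ((i, j - 1) : Site) ∈ ver Λ) :
    Hs (i, j - 1) - Hs (i, j) = C (i, j - 1) ^ 2 + D (i - 1, j - 1) ^ 2 +
      2 * √2 * (θ (i - 1, j - 1) * (C (i, j - 1) * D (i - 1, j - 1))) := by
  have e1 := h.H (i - 1) (j - 1) (by rwa [sub_add_cancel])
  rw [sub_add_cancel] at e1
  have e2 := hH.c i (j - 1)
  have e3 := hH.a i (j - 1)
  rw [sub_add_cancel] at e2
  have e4 : A (i, j - 1) = √2 * C (i, j - 1) + θ (i - 1, j - 1) * D (i - 1, j - 1) := by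
    rw [e1.2]; linear_combination (√2 * C (i, j - 1) - A (i, j - 1)) * h.θ2 (i - 1, j - 1)
  have e5 : Hs (i, j - 1) - Hs (i, j) = A (i, j - 1) ^ 2 - C (i, j - 1) ^ 2 := by linarith
  rw [e5, e4]
  linear_combination (C (i, j - 1) ^ 2) * sqrt2_sq + (D (i - 1, j - 1) ^ 2) * h.θ2 (i - 1, j - 1)

theorem dE {i j : ℤ} (he : ((i, j) : Site) ∈ hor Λ) :
    Hs (i + 1, j) - Hs (i, j) = A (i, j) ^ 2 + C (i, j - 1) ^ 2 -
      2 * √2 * (A (i, j) * C (i, j - 1)) := by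
  have e1 := h.V i (j - 1) (by rwa [sub_add_cancel])
  rw [sub_add_cancel] at e1
  have e2 := hH.b i j
  have e3 := hH.a i j
  have e4 : B (i, j) = τ (i, j - 1) * (√2 * A (i, j) - C (i, j - 1)) := by
    rw [e1.1]; linear_combination (-B (i, j)) * h.τ2 (i, j - 1)
  have e5 : Hs (i + 1, j) - Hs (i, j) = B (i, j) ^ 2 - A (i, j) ^ 2 := by linarith
  rw [e5, e4]
  linear_combination (A (i, j) ^ 2) * sqrt2_sq + (√2 * A (i, j) - C (i, j - 1)) ^ 2 * h.τ2 (i, j - 1)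

theorem dW {i j : ℤ} (he : ((i - 1, j) : Site) ∈ hor Λ) :
    Hs (i - 1, j) - Hs (i, j) = B (i - 1, j) ^ 2 + D (i - 1, j - 1) ^ 2 -
      2 * √2 * (B (i - 1, j) * D (i - 1, j - 1)) := by
  have e1 := h.V (i - 1) (j - 1) (by rwa [sub_add_cancel])
  rw [sub_add_cancel] at e1
  have e2 := hH.b (i - 1) j
  have e3 := hH.a (i - 1) j
  rw [sub_add_cancel] at e2
  have e4 : A (i - 1, j) = τ (i - 1, j - 1) * (√2 * B (i - 1, j) - D (i - 1, j - 1)) := by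
    rw [e1.2]; linear_combination (-A (i - 1, j)) * h.τ2 (i - 1, j - 1)
  have e5 : Hs (i - 1, j) - Hs (i, j) = A (i - 1, j) ^ 2 - B (i - 1, j) ^ 2 := by linarith
  rw [e5, e4]
  linear_combination (B (i - 1, j) ^ 2) * sqrt2_sq +
    (√2 * B (i - 1, j) - D (i - 1, j - 1)) ^ 2 * h.τ2 (i - 1, j - 1)

/-- The Laplacian of `Hs` at a site all of whose neighbours are in `Λ`. -/
theorem lap_int {i j : ℤ} (hv : ((i, j) : Site) ∈ Λ) (hN : ((i, j + 1) : Site) ∈ Λ)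
    (hS : ((i, j - 1) : Site) ∈ Λ) (hE : ((i + 1, j) : Site) ∈ Λ) (hW : ((i - 1, j) : Site) ∈ Λ) :
    lap Hs (i, j) = 2 * (A (i, j) ^ 2 + B (i - 1, j) ^ 2 + C (i, j - 1) ^ 2 + D (i - 1, j - 1) ^ 2) -
      2 * √2 * (θ (i - 1, j) * (A (i, j) * B (i - 1, j)) -
        θ (i - 1, j - 1) * (C (i, j - 1) * D (i - 1, j - 1)) + A (i, j) * C (i, j - 1) +
        B (i - 1, j) * D (i - 1, j - 1)) := by
  have e1 := dN h hH (mem_ver.2 ⟨hv, hN⟩)
  have e2 := dS h hH (i := i) (j := j) (mem_ver.2 ⟨hS, by simpa using hv⟩)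
  have e3 := dE h hH (mem_hor.2 ⟨hv, hE⟩)
  have e4 := dW h hH (i := i) (j := j) (mem_hor.2 ⟨hW, by simpa using hv⟩)
  unfold lap
  simp only
  linear_combination e1 + e2 + e3 + e4

/-- Lower bound at a site where a spin is inserted. -/
theorem lap_int_lower {i j : ℤ} (hv : ((i, j) : Site) ∈ Λ) (hN : ((i, j + 1) : Site) ∈ Λ)
    (hS : ((i, j - 1) : Site) ∈ Λ) (hE : ((i + 1, j) : Site) ∈ Λ) (hW : ((i - 1, j) : Site) ∈ Λ) :
    -(2 * √2 - 2) * (A (i, j) ^ 2 + B (i - 1, j) ^ 2 + C (i, j - 1) ^ 2 + D (i - 1, j - 1) ^ 2) ≤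
      lap Hs (i, j) := by
  rw [lap_int h hH hv hN hS hE hW]
  exact quad_lower _ _ _ _ _ _ (h.θ2 _) (h.θ2 _)

/-- Differences of `Hf` between a face and its neighbours, in terms of the values at the face. -/
theorem ffN {i j : ℤ} (he : ((i, j + 1) : Site) ∈ hor Λ) :
    Hf (i, j + 1) - Hf (i, j) = -(C (i, j) ^ 2 + D (i, j) ^ 2) -
      2 * √2 * (τ (i, j) * (C (i, j) * D (i, j))) := by
  have e1 := h.V i j he
  have e2 := hH.c i j
  have e3 := hH.a i (j + 1)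
  have e4 : A (i, j + 1) = √2 * C (i, j) + τ (i, j) * D (i, j) := by
    rw [e1.2, e1.1]
    linear_combination (-A (i, j + 1)) * sqrt2_sq + A (i, j + 1) * h.τ2 (i, j)
  have e5 : Hf (i, j + 1) - Hf (i, j) = C (i, j) ^ 2 - A (i, j + 1) ^ 2 := by linarith
  rw [e5, e4]
  linear_combination (-(C (i, j) ^ 2)) * sqrt2_sq - (D (i, j) ^ 2) * h.τ2 (i, j)

theorem ffS {i j : ℤ} (he : ((i, j) : Site) ∈ hor Λ) :
    Hf (i, j - 1) - Hf (i, j) = -(A (i, j) ^ 2 + B (i, j) ^ 2) +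
      2 * √2 * (τ (i, j - 1) * (A (i, j) * B (i, j))) := by
  have e1 := h.V i (j - 1) (by rwa [sub_add_cancel])
  have e2 := hH.c i (j - 1)
  have e3 := hH.a i j
  rw [sub_add_cancel] at e1 e2
  have e5 : Hf (i, j - 1) - Hf (i, j) = A (i, j) ^ 2 - C (i, j - 1) ^ 2 := by linarith
  rw [e5, e1.1]
  linear_combination (-(A (i, j) ^ 2)) * sqrt2_sq - (B (i, j) ^ 2) * h.τ2 (i, j - 1)

theorem ffE {i j : ℤ} (he : ((i + 1, j) : Site) ∈ ver Λ) :
    Hf (i + 1, j) - Hf (i, j) = -(B (i, j) ^ 2 + D (i, j) ^ 2) +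
      2 * √2 * (B (i, j) * D (i, j)) := by
  have e1 := h.H i j he
  have e2 := hH.b i j
  have e3 := hH.a (i + 1) j
  have e4 : A (i + 1, j) = θ (i, j) * (√2 * B (i, j) - D (i, j)) := by
    rw [e1.2, e1.1]
    linear_combination (-(θ (i, j) ^ 2 * A (i + 1, j))) * sqrt2_sq - A (i + 1, j) * h.θ2 (i, j)
  have e5 : Hf (i + 1, j) - Hf (i, j) = B (i, j) ^ 2 - A (i + 1, j) ^ 2 := by linarith
  rw [e5, e4]
  linear_combination (-(√2 * B (i, j) - D (i, j)) ^ 2) * h.θ2 (i, j) - B (i, j) ^ 2 * sqrt2_sq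

theorem ffW {i j : ℤ} (he : ((i, j) : Site) ∈ ver Λ) :
    Hf (i - 1, j) - Hf (i, j) = -(A (i, j) ^ 2 + C (i, j) ^ 2) +
      2 * √2 * (A (i, j) * C (i, j)) := by
  have e1 := h.H (i - 1) j (by rwa [sub_add_cancel])
  have e2 := hH.b (i - 1) j
  have e3 := hH.a i j
  rw [sub_add_cancel] at e1 e2
  have e5 : Hf (i - 1, j) - Hf (i, j) = A (i, j) ^ 2 - B (i - 1, j) ^ 2 := by linarith
  rw [e5, e1.1]
  linear_combination (-(√2 * A (i, j) - C (i, j)) ^ 2) * h.θ2 (i - 1, j) - A (i, j) ^ 2 * sqrt2_sq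

/-- The Laplacian of `Hf` at an inner face. -/
theorem lapf {i j : ℤ} (h1 : ((i, j) : Site) ∈ Λ) (h2 : ((i + 1, j) : Site) ∈ Λ)
    (h3 : ((i, j + 1) : Site) ∈ Λ) (h4 : ((i + 1, j + 1) : Site) ∈ Λ) :
    lap Hf (i, j) = -(2 * (B (i, j) ^ 2 + A (i, j) ^ 2 + D (i, j) ^ 2 + C (i, j) ^ 2) -
      2 * √2 * (τ (i, j - 1) * (B (i, j) * A (i, j)) - τ (i, j) * (D (i, j) * C (i, j)) +
        B (i, j) * D (i, j) + A (i, j) * C (i, j))) := by
  have e1 := ffN h hH (mem_hor.2 ⟨h3, h4⟩)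
  have e2 := ffS h hH (mem_hor.2 ⟨h1, h2⟩)
  have e3 := ffE h hH (mem_ver.2 ⟨h2, h4⟩)
  have e4 := ffW h hH (mem_ver.2 ⟨h1, h3⟩)
  unfold lap
  simp only
  linear_combination e1 + e2 + e3 + e4

/-- `Hf` is superharmonic at inner faces without a disorder. -/
theorem lapf_nonpos {i j : ℤ} (h1 : ((i, j) : Site) ∈ Λ) (h2 : ((i + 1, j) : Site) ∈ Λ)
    (h3 : ((i, j + 1) : Site) ∈ Λ) (h4 : ((i + 1, j + 1) : Site) ∈ Λ)
    (hτ : τ (i, j) = τ (i, j - 1)) : lap Hf (i, j) ≤ 0 := by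
  rw [lapf h hH h1 h2 h3 h4, hτ]
  have := quad_nonneg (B (i, j)) (A (i, j)) (D (i, j)) (C (i, j)) (τ (i, j - 1)) (h.τ2 _)
  linarith

/-- Upper bound at any inner face. -/
theorem lapf_upper {i j : ℤ} (h1 : ((i, j) : Site) ∈ Λ) (h2 : ((i + 1, j) : Site) ∈ Λ)
    (h3 : ((i, j + 1) : Site) ∈ Λ) (h4 : ((i + 1, j + 1) : Site) ∈ Λ) :
    lap Hf (i, j) ≤ (2 * √2 - 2) * (A (i, j) ^ 2 + B (i, j) ^ 2 + C (i, j) ^ 2 + D (i, j) ^ 2) := by
  rw [lapf h hH h1 h2 h3 h4]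
  have := quad_lower (B (i, j)) (A (i, j)) (D (i, j)) (C (i, j)) (τ (i, j - 1)) (τ (i, j))
    (h.τ2 _) (h.τ2 _)
  linarith

/-- The mass of `Hs` at the corners of a disorder controls the values there. -/
theorem branch_face {i j : ℤ}
    (hb : ∀ x y : ℤ, i - 1 ≤ x → x ≤ i + 2 → j - 1 ≤ y → y ≤ j + 2 → ((x, y) : Site) ∈ Λ)
    (t1 : θ (i - 1, j) = θ (i - 1, j - 1)) (t2 : θ (i, j) = θ (i, j - 1))
    (t3 : θ (i - 1, j + 1) = θ (i - 1, j)) (t4 : θ (i, j + 1) = θ (i, j))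
    (hτ : τ (i, j) = -τ (i, j - 1)) :
    (6 - 4 * √2) * sqF A B C D (i, j) ≤
      lap Hs (i, j) + lap Hs (i + 1, j) + lap Hs (i, j + 1) + lap Hs (i + 1, j + 1) := by
  have mem : ∀ x y : ℤ, i - 1 ≤ x → x ≤ i + 2 → j - 1 ≤ y → y ≤ j + 2 → ((x, y) : Site) ∈ Λ := hb
  have l1 := lap_int h hH (i := i) (j := j) (mem _ _ (by lia) (by lia) (by lia) (by lia))
    (mem _ _ (by lia) (by lia) (by lia) (by lia)) (mem _ _ (by lia) (by lia) (by lia) (by lia))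
    (mem _ _ (by lia) (by lia) (by lia) (by lia)) (mem _ _ (by lia) (by lia) (by lia) (by lia))
  have l2 := lap_int h hH (i := i + 1) (j := j) (mem _ _ (by lia) (by lia) (by lia) (by lia))
    (mem _ _ (by lia) (by lia) (by lia) (by lia)) (mem _ _ (by lia) (by lia) (by lia) (by lia))
    (mem _ _ (by lia) (by lia) (by lia) (by lia)) (mem _ _ (by lia) (by lia) (by lia) (by lia))
  have l3 := lap_int h hH (i := i) (j := j + 1) (mem _ _ (by lia) (by lia) (by lia) (by lia))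
    (mem _ _ (by lia) (by lia) (by lia) (by lia)) (mem _ _ (by lia) (by lia) (by lia) (by lia))
    (mem _ _ (by lia) (by lia) (by lia) (by lia)) (mem _ _ (by lia) (by lia) (by lia) (by lia))
  have l4 := lap_int h hH (i := i + 1) (j := j + 1) (mem _ _ (by lia) (by lia) (by lia) (by lia))
    (mem _ _ (by lia) (by lia) (by lia) (by lia)) (mem _ _ (by lia) (by lia) (by lia) (by lia))
    (mem _ _ (by lia) (by lia) (by lia) (by lia)) (mem _ _ (by lia) (by lia) (by lia) (by lia))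
  rw [← t1] at l1
  rw [add_sub_cancel_right, ← t2] at l2
  rw [add_sub_cancel_right, t3] at l3
  rw [add_sub_cancel_right, add_sub_cancel_right, t4] at l4
  rw [(quad_id _ _ _ _ _ (h.θ2 _)).1] at l1
  rw [(quad_id _ _ _ _ _ (h.θ2 _)).2] at l2
  rw [(quad_id _ _ _ _ _ (h.θ2 _)).2] at l3
  rw [(quad_id _ _ _ _ _ (h.θ2 _)).1] at l4
  have eN := h.V i j (mem_hor.2 ⟨mem _ _ (by lia) (by lia) (by lia) (by lia),
    mem _ _ (by lia) (by lia) (by lia) (by lia)⟩)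
  have eS := h.V i (j - 1) (by
    rw [sub_add_cancel]
    exact mem_hor.2 ⟨mem _ _ (by lia) (by lia) (by lia) (by lia),
      mem _ _ (by lia) (by lia) (by lia) (by lia)⟩)
  have eE := h.H i j (mem_ver.2 ⟨mem _ _ (by lia) (by lia) (by lia) (by lia),
    mem _ _ (by lia) (by lia) (by lia) (by lia)⟩)
  have eW := h.H (i - 1) j (by
    rw [sub_add_cancel]
    exact mem_ver.2 ⟨mem _ _ (by lia) (by lia) (by lia) (by lia),
      mem _ _ (by lia) (by lia) (by lia) (by lia)⟩)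
  rw [sub_add_cancel] at eS eW
  have q2 := sqrt2_sq
  have th1 := h.θ2 (i - 1, j)
  have th2 := h.θ2 (i, j)
  have ta := h.τ2 (i, j)
  -- first corner
  have f1 : √2 * A (i, j) - (θ (i - 1, j) * B (i - 1, j) + C (i, j - 1)) =
      -(C (i, j) * (-1) + τ (i, j - 1) * B (i, j) * (-1) + √2 * A (i, j)) := by
    rw [eW.1, eS.1]
    linear_combination (-(√2 * A (i, j) - C (i, j))) * th1
  have f2 : √2 * B (i, j) - (θ (i, j) * A (i + 1, j) + D (i, j - 1)) =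
      D (i, j) + τ (i, j - 1) * A (i, j) - √2 * B (i, j) := by
    rw [eS.2, eE.1, eE.2]
    linear_combination (θ (i, j) * A (i + 1, j)) * q2
  have f3 : √2 * C (i, j) - (A (i, j + 1) - θ (i - 1, j) * D (i - 1, j)) =
      A (i, j) - τ (i, j) * D (i, j) - √2 * C (i, j) := by
    rw [eW.2, eN.1, eN.2]
    linear_combination (-(√2 * (√2 * A (i, j + 1) - τ (i, j) * B (i, j + 1)) - A (i, j))) * th1 +
      A (i, j + 1) * q2 - A (i, j + 1) * ta
  have f4 : √2 * D (i, j) - (B (i, j + 1) - θ (i, j) * C (i + 1, j)) =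
      B (i, j) - τ (i, j) * C (i, j) - √2 * D (i, j) := by
    have g1 : B (i, j + 1) = √2 * D (i, j) + τ (i, j) * C (i, j) := by
      rw [eN.1, eN.2]
      linear_combination (-(B (i, j + 1))) * q2 + B (i, j + 1) * ta
    have g2 : θ (i, j) * C (i + 1, j) = B (i, j) - √2 * D (i, j) := by
      rw [eE.1, eE.2]
      linear_combination (-(θ (i, j) * C (i + 1, j))) * q2
    rw [g1, g2]; ring
  rw [f1] at l1
  rw [f2] at l2
  rw [f3, hτ] at l3
  rw [f4, hτ] at l4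
  have key := four_cycle (A (i, j)) (B (i, j)) (C (i, j)) (D (i, j)) (τ (i, j - 1)) (h.τ2 _)
  unfold sqF
  rw [l1, l2, l3, l4]
  refine key.trans (le_of_sub_nonneg ?_)
  have e : (-(C (i, j) * -1 + τ (i, j - 1) * B (i, j) * -1 + √2 * A (i, j))) ^ 2 +
      (√2 * D (i - 1, j - 1) - (B (i - 1, j) - θ (i - 1, j) * C (i, j - 1))) ^ 2 +
      ((D (i, j) + τ (i, j - 1) * A (i, j) - √2 * B (i, j)) ^ 2 +
      (√2 * C (i + 1, j - 1) - (A (i + 1, j) - θ (i, j) * D (i, j - 1))) ^ 2) +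
      ((√2 * B (i - 1, j + 1) - (θ (i - 1, j) * A (i, j + 1) + D (i - 1, j))) ^ 2 +
      (A (i, j) - -τ (i, j - 1) * D (i, j) - √2 * C (i, j)) ^ 2) +
      ((√2 * A (i + 1, j + 1) - (θ (i, j) * B (i, j + 1) + C (i + 1, j))) ^ 2 +
      (B (i, j) - -τ (i, j - 1) * C (i, j) - √2 * D (i, j)) ^ 2) -
      ((C (i, j) + τ (i, j - 1) * B (i, j) - √2 * A (i, j)) ^ 2 +
      (D (i, j) + τ (i, j - 1) * A (i, j) - √2 * B (i, j)) ^ 2 +
      (A (i, j) + τ (i, j - 1) * D (i, j) - √2 * C (i, j)) ^ 2 +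
      (B (i, j) + τ (i, j - 1) * C (i, j) - √2 * D (i, j)) ^ 2) =
      (√2 * D (i - 1, j - 1) - (B (i - 1, j) - θ (i - 1, j) * C (i, j - 1))) ^ 2 +
      (√2 * C (i + 1, j - 1) - (A (i + 1, j) - θ (i, j) * D (i, j - 1))) ^ 2 +
      (√2 * B (i - 1, j + 1) - (θ (i - 1, j) * A (i, j + 1) + D (i - 1, j))) ^ 2 +
      (√2 * A (i + 1, j + 1) - (θ (i, j) * B (i, j + 1) + C (i + 1, j))) ^ 2 := by ring
  rw [e]
  positivity

end

end Vale.Agent.P144T
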