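import Vale.Agent.P144T.H0

/-!
The `H`-function of a spinor in an arbitrary finite set: existence, the boundary, the extension.
-/

namespace Vale.Agent.P144T

open Finset Vale.Agent.P144
open Vale.Agent.P144.AL hiding IsH
open Vale.Agent.P144G (Exg oi oi_in oi_out alg)

/-- The properties of the `H`-function that hold everywhere. -/
structure HB (Λ : Finset Site) (Hs Hf : Site → ℝ) : Prop where
  far : ∃ M : ℕ, ∀ v ∉ box M, Hs v = 0
  zero : ∀ f v, v ∈ cnr f → v ∉ Λ → Hf f = Hs v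
  le : ∀ f v, v ∈ cnr f → Hf f ≤ Hs v

/-- The extension of `Hs` to the outside. -/
noncomputable def hat (Λ : Finset Site) (Hs : Site → ℝ) (x : Site) : ℝ :=
  if x ∈ Λ then Hs x else Hs x + lap Hs x / 5

/-- The properties of the `H`-function at a site and a face without insertion. -/
def Reg (Λ : Finset Site) (Hs Hf : Site → ℝ) (x : Site) : Prop :=
  0 ≤ lap (hat Λ Hs) x ∧ ((∀ u ∈ cnr x, u ∈ Λ) → lap Hf x ≤ 0)

/-- Paths of a king in the complement. -/
def Kg (Λ : Finset Site) : Site → Site → Prop :=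
  Relation.ReflTransGen fun x y : Site => y ∉ Λ ∧ |x.1 - y.1| ≤ 1 ∧ |x.2 - y.2| ≤ 1

section

variable {Λ : Finset Site} {Hs Hf : Site → ℝ}

theorem self_cnr (x : Site) : x ∈ cnr x := by simp [mem_cnr]

theorem hat_in {x : Site} (hx : x ∈ Λ) : hat Λ Hs x = Hs x := if_pos hx

theorem hat_out {x : Site} (hx : x ∉ Λ) : hat Λ Hs x = Hs x + lap Hs x / 5 := if_neg hx

theorem HB.kle (h : HB Λ Hs Hf) {x y : Site} (hx : x ∉ Λ) (h1 : |x.1 - y.1| ≤ 1)
    (h2 : |x.2 - y.2| ≤ 1) : Hs x ≤ Hs y := by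
  rw [abs_le] at h1 h2
  rw [← h.zero (min x.1 y.1, min x.2 y.2) x ?_ hx]
  · refine h.le _ _ ?_
    rw [mem_cnr]
    simp only [Prod.ext_iff]
    lia
  · rw [mem_cnr]
    simp only [Prod.ext_iff]
    lia

theorem HB.kg (h : HB Λ Hs Hf) {x y : Site} (hx : x ∉ Λ) (hxy : Kg Λ x y) :
    y ∉ Λ ∧ Hs y = Hs x := by
  induction hxy with
  | refl => exact ⟨hx, rfl⟩
  | tail _ h2 ih =>
    refine ⟨h2.1, le_antisymm ?_ ?_⟩
    · rw [← ih.2]
      exact h.kle h2.1 (by rw [abs_sub_comm]; exact h2.2.1) (by rw [abs_sub_comm]; exact h2.2.2)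
    · rw [← ih.2]
      exact h.kle ih.1 h2.2.1 h2.2.2

theorem HB.nbr (h : HB Λ Hs Hf) {x : Site} (hx : x ∉ Λ) :
    Hs x ≤ Hs (x.1 + 1, x.2) ∧ Hs x ≤ Hs (x.1 - 1, x.2) ∧ Hs x ≤ Hs (x.1, x.2 + 1) ∧
      Hs x ≤ Hs (x.1, x.2 - 1) :=
  ⟨h.kle hx (by simp) (by simp), h.kle hx (by simp) (by simp), h.kle hx (by simp) (by simp),
    h.kle hx (by simp) (by simp)⟩

theorem HB.le_hat (h : HB Λ Hs Hf) (x : Site) : Hs x ≤ hat Λ Hs x := by
  by_cases hx : x ∈ Λ
  · rw [hat_in hx]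
  · obtain ⟨h1, h2, h3, h4⟩ := h.nbr hx
    rw [hat_out hx]
    unfold lap
    linarith

/-- The increments at an outer site are bounded by the modification. -/
theorem HB.inc (h : HB Λ Hs Hf) {x y : Site} (hx : x ∉ Λ) (hy : y = (x.1 + 1, x.2) ∨
    y = (x.1 - 1, x.2) ∨ y = (x.1, x.2 + 1) ∨ y = (x.1, x.2 - 1)) :
    Hs y - Hs x ≤ 5 * (hat Λ Hs x - Hs x) := by
  obtain ⟨h1, h2, h3, h4⟩ := h.nbr hx
  rw [hat_out hx]
  unfold lap
  rcases hy with rfl | rfl | rfl | rfl <;> linarith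

theorem HB.lap_hat_out (h : HB Λ Hs Hf) {x : Site} (hx : x ∉ Λ) :
    hat Λ Hs x - Hs x ≤ lap (hat Λ Hs) x := by
  have e := hat_out (Hs := Hs) hx
  have h1 := h.le_hat (x.1 + 1, x.2)
  have h2 := h.le_hat (x.1 - 1, x.2)
  have h3 := h.le_hat (x.1, x.2 + 1)
  have h4 := h.le_hat (x.1, x.2 - 1)
  unfold lap at e ⊢
  linarith

/-- The function vanishes on rays in the complement. -/
theorem HB.ray (h : HB Λ Hs Hf) {x : Site} {s : ℤ} (hs : s = 1 ∨ s = -1)
    (hx : ∀ n : ℕ, ((x.1 + s * n, x.2) : Site) ∉ Λ) : Hs x = 0 := by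
  obtain ⟨M, hM⟩ := h.far
  have key : ∀ n : ℕ, Kg Λ x (x.1 + s * n, x.2) := by
    intro n
    induction n with
    | zero => simpa [Kg] using Relation.ReflTransGen.refl
    | succ n ih =>
      refine ih.tail ⟨hx _, ?_, by simp⟩
      rcases hs with rfl | rfl <;> simp
  rw [← (h.kg (by simpa using hx 0) (key (M + 1 + x.1.natAbs))).2]
  refine hM _ fun hb => ?_
  rw [H436.mem_box, abs_le, abs_le] at hb
  rcases hs with rfl | rfl <;> simp only at hb <;> lia

/-- The function vanishes outside a diamond that contains the set. -/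
theorem HB.dia (h : HB Λ Hs Hf) {n : ℤ} (hΛ : ∀ x ∈ Λ, |x.1| + |x.2| ≤ n) {x : Site}
    (hx : n < |x.1| + |x.2|) : Hs x = 0 := by
  rcases le_total 0 x.1 with h0 | h0
  · refine h.ray (s := 1) (Or.inl rfl) fun m hm => ?_
    have := hΛ _ hm
    simp only at this
    rw [abs_of_nonneg h0] at hx
    rw [abs_of_nonneg (by lia : 0 ≤ x.1 + 1 * (m : ℤ))] at this
    lia
  · refine h.ray (s := -1) (Or.inr rfl) fun m hm => ?_
    have := hΛ _ hm
    simp only at this
    rw [abs_of_nonpos h0] at hx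
    rw [abs_of_nonpos (by lia : x.1 + -1 * (m : ℤ) ≤ 0)] at this
    lia

/-- A common finite support. -/
theorem HB.supp (h : HB Λ Hs Hf) (R : Finset Site) : ∃ M : ℕ, Λ ∪ R ⊆ box M ∧
    (∀ x ∉ box M, Hs x = 0) ∧ (∀ x ∉ box M, Hf x = 0) ∧ ∀ x ∉ box M, hat Λ Hs x = 0 := by
  obtain ⟨M, hM⟩ := h.far
  obtain ⟨K, hK⟩ : ∃ K : ℕ, Λ ∪ R ⊆ box K := (H436.subset_box (Λ ∪ R)).exists
  have h1 : ∀ x ∉ box (M + K + 1), x ∉ Λ ∧ Hs x = 0 := fun x hx =>
    ⟨fun b => hx (H436.box_mono (by lia) (hK (mem_union_left _ b))),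
      hM x fun b => hx (H436.box_mono (by lia) b)⟩
  refine ⟨M + K + 1, hK.trans (H436.box_mono (by lia)), fun x hx => (h1 x hx).2, fun x hx => ?_,
    fun x hx => ?_⟩
  · rw [h.zero x x (self_cnr x) (h1 x hx).1, (h1 x hx).2]
  · rw [hat_out (h1 x hx).1, (h1 x hx).2, supp_lap (M := M + K)
      (fun y hy => hM y fun b => hy (H436.box_mono (by lia) b)) x hx]
    norm_num

/-- `lap Hf` at a face which has a corner outside. -/
theorem HB.lapf_out (h : HB Λ Hs Hf) {f u : Site} (hu : u ∈ cnr f) (hΛ : u ∉ Λ) :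
    lap Hf f ≤ 20 * ∑ v ∈ cnr f, (hat Λ Hs v - Hs v) := by
  have h0 := single_le_sum (f := fun v => hat Λ Hs v - Hs v) (s := cnr f)
    (fun v _ => sub_nonneg.2 (h.le_hat v)) hu
  have h1 := sub_nonneg.2 (h.le_hat u)
  have key : ∀ f' : Site, |f'.1 - f.1| + |f'.2 - f.2| = 1 →
      Hf f' - Hs u ≤ 5 * (hat Λ Hs u - Hs u) := by
    intro f' e
    by_cases h2 : u ∈ cnr f'
    · linarith [h.le f' u h2]
    · obtain ⟨y, y1, y2⟩ : ∃ y ∈ cnr f', y = (u.1 + 1, u.2) ∨ y = (u.1 - 1, u.2) ∨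
          y = (u.1, u.2 + 1) ∨ y = (u.1, u.2 - 1) := by
        by_contra hc
        push Not at hc
        have c1 := fun b => (hc (u.1 + 1, u.2) b).1 rfl
        have c2 := fun b => (hc (u.1 - 1, u.2) b).2.1 rfl
        have c3 := fun b => (hc (u.1, u.2 + 1) b).2.2.1 rfl
        have c4 := fun b => (hc (u.1, u.2 - 1) b).2.2.2 rfl
        simp only [mem_cnr, Prod.ext_iff] at hu h2 c1 c2 c3 c4
        rcases abs_cases (f'.1 - f.1) with e1 | e1 <;> rcases abs_cases (f'.2 - f.2) with e2 | e2 <;>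
          lia
      linarith [h.le f' y y1, h.inc hΛ y2]
  have k1 := key (f.1 + 1, f.2) (by simp)
  have k2 := key (f.1 - 1, f.2) (by simp)
  have k3 := key (f.1, f.2 + 1) (by simp)
  have k4 := key (f.1, f.2 - 1) (by simp)
  unfold lap
  rw [h.zero f u hu hΛ]
  linarith

theorem hat_div (L : ℝ) : hat Λ (fun x => Hs x / L) = fun x => hat Λ Hs x / L := by
  funext x
  unfold hat
  rw [P144Q.lap_div]
  split_ifs <;> ring

theorem HB.div (h : HB Λ Hs Hf) {L : ℝ} (hL : 0 < L) :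
    HB Λ (fun x => Hs x / L) (fun x => Hf x / L) where
  far := h.far.imp fun _ hM v hv => by rw [hM v hv, zero_div]
  zero := fun f v h1 h2 => by rw [h.zero f v h1 h2]
  le := fun f v h1 => div_le_div_of_nonneg_right (h.le f v h1) hL.le

theorem Reg.div {x : Site} (h : Reg Λ Hs Hf x) {L : ℝ} (hL : 0 < L) :
    Reg Λ (fun x => Hs x / L) (fun x => Hf x / L) x := by
  refine ⟨?_, fun hx => ?_⟩
  · rw [hat_div, P144Q.lap_div]
    exact div_nonneg h.1 hL.le
  · rw [P144Q.lap_div]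
    exact div_nonpos_of_nonpos_of_nonneg (h.2 hx) hL.le

end

section

variable {Λ : Finset Site} {τ θ A B C D : Site → ℝ} (h : Spr Λ τ θ A B C D)

include h

/-- The `H`-function exists. -/
theorem exists_H : ∃ Hs Hf : Site → ℝ, IsH A B C D Hs Hf := by
  obtain ⟨M, hM⟩ : ∃ M : ℕ, Λ ⊆ box M := (H436.subset_box Λ).exists
  have hout : ∀ x : Site, (M:ℤ) < x.2 → x ∉ Λ := by
    intro x hx hxΛ
    have := hM hxΛ
    rw [H436.mem_box, abs_le, abs_le] at this
    lia
  obtain ⟨Hf, hHf⟩ : ∃ Hf : Site → ℝ, ∀ i j : ℤ, Hf (i, j) =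
      ∑ y ∈ Finset.Ico j ((M:ℤ) + 1), (A (i, y + 1) ^ 2 - C (i, y) ^ 2) :=
    ⟨fun f => ∑ y ∈ Finset.Ico f.2 ((M:ℤ) + 1), (A (f.1, y + 1) ^ 2 - C (f.1, y) ^ 2),
      fun _ _ => rfl⟩
  have step : ∀ i j : ℤ, Hf (i, j) = Hf (i, j + 1) + A (i, j + 1) ^ 2 - C (i, j) ^ 2 := by
    intro i j
    rw [hHf, hHf]
    by_cases hj : j < (M:ℤ) + 1
    · have : Finset.Ico j ((M:ℤ) + 1) = insert j (Finset.Ico (j + 1) ((M:ℤ) + 1)) := by
        ext y; simp only [mem_Ico, mem_insert]; lia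
      rw [this, sum_insert (by simp)]
      ring
    · rw [Finset.Ico_eq_empty (by lia), Finset.Ico_eq_empty (by lia),
        h.zA i (j + 1) (hout _ (by simp only; lia)), h.zC i j (hout _ (by simp only; lia))]
      simp
  have high : ∀ i j : ℤ, (M:ℤ) < j → Hf (i, j) = 0 := by
    intro i j hj
    rw [hHf, Finset.Ico_eq_empty (by lia)]
    simp
  have horz : ∀ i j : ℤ, Hf (i + 1, j) - Hf (i, j) = B (i, j) ^ 2 - A (i + 1, j) ^ 2 := by
    intro i j
    have key : ∀ n : ℕ, ∀ j : ℤ, (M:ℤ) + 1 - n ≤ j →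
        Hf (i + 1, j) - Hf (i, j) = B (i, j) ^ 2 - A (i + 1, j) ^ 2 := by
      intro n
      induction n with
      | zero =>
        intro j hj
        rw [high _ _ (by lia), high _ _ (by lia), h.zB i j (hout _ (by simp only; lia)),
          h.zA (i + 1) j (hout _ (by simp only; lia))]
        simp
      | succ n ih =>
        intro j hj
        by_cases hj' : (M:ℤ) + 1 - n ≤ j
        · exact ih j hj'
        · have e := ih (j + 1) (by lia)
          have e1 := step (i + 1) j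
          have e2 := step i j
          have e3 := h.quadV i j
          have e4 := h.quadH i j
          linarith
    exact key ((M:ℤ) + 1 - j).toNat j (by lia)
  have hb : ∀ i j : ℤ, Hf (i + 1, j) + A (i + 1, j) ^ 2 - Hf (i, j) = B (i, j) ^ 2 := by
    intro i j; linarith [horz i j]
  have hcc : ∀ i j : ℤ, Hf (i, j + 1) + A (i, j + 1) ^ 2 - Hf (i, j) = C (i, j) ^ 2 := by
    intro i j; linarith [step i j]
  have hd : ∀ i j : ℤ, Hf (i + 1, j + 1) + A (i + 1, j + 1) ^ 2 - Hf (i, j) = D (i, j) ^ 2 := by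
    intro i j
    have e1 := hb i (j + 1)
    have e2 := step i j
    have e3 := h.quadV i j
    linarith
  refine ⟨fun v => Hf v + A v ^ 2, Hf, fun i j => by simp, hb, hcc, hd, M + 1, ?_⟩
  have hz : ∀ v ∉ box M, v ∉ Λ := fun v hv b => hv (hM b)
  have side : ∀ i j : ℤ, (i + 1 < -(M : ℤ) ∨ (M : ℤ) < i) → Hf (i, j) = 0 := by
    intro i j hi
    rw [hHf]
    refine sum_eq_zero fun y _ => ?_
    rw [h.zA i (y + 1) (hz _ ?_), h.zC i y (hz _ ?_)]
    · simp
    all_goals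
      rw [H436.mem_box, abs_le, abs_le]
      simp only
      lia
  have low : ∀ j : ℤ, j < -(M : ℤ) → ∀ n : ℕ, Hf ((M : ℤ) + 1 - n, j) = 0 := by
    intro j hj n
    induction n with
    | zero => exact side _ _ (by simp)
    | succ n ih =>
      have e := horz ((M : ℤ) + 1 - (n + 1 : ℕ)) j
      rw [h.zB _ j (hz _ ?_), h.zA _ j (hz _ ?_), show (M : ℤ) + 1 - (n + 1 : ℕ) + 1 =
        (M : ℤ) + 1 - n by push_cast; ring, ih] at e
      · linarith
      all_goals
        rw [H436.mem_box, abs_le, abs_le]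
        simp only
        lia
  rintro ⟨i, j⟩ hv
  rw [h.zA i j (hz _ fun b => hv (H436.box_mono (Nat.le_succ M) b))]
  rw [H436.mem_box, abs_le, abs_le] at hv
  simp only at hv ⊢
  have : Hf (i, j) = 0 := by
    by_cases h1 : i + 1 < -(M : ℤ) ∨ (M : ℤ) < i
    · exact side i j h1
    · by_cases h2 : (M : ℤ) < j
      · exact high i j h2
      · have := low j (by lia) ((M : ℤ) + 1 - i).toNat
        rwa [show (M : ℤ) + 1 - ((M : ℤ) + 1 - i).toNat = i by lia] at this
  rw [this]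
  norm_num

variable {Hs Hf : Site → ℝ} (hH : IsH A B C D Hs Hf)

include hH

theorem HB.of_spr : HB Λ Hs Hf where
  far := hH.far
  zero := by
    rintro ⟨i, j⟩ v hv hΛ
    rcases mem_cnr.1 hv with rfl | rfl | rfl | rfl
    · have := hH.a i j; rw [h.zA i j hΛ] at this; linarith
    · have := hH.b i j; rw [h.zB i j hΛ] at this; simp only; linarith
    · have := hH.c i j; rw [h.zC i j hΛ] at this; simp only; linarith
    · have := hH.d i j; rw [h.zD i j hΛ] at this; simp only; linarith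
  le := by
    rintro ⟨i, j⟩ v hv
    rcases mem_cnr.1 hv with rfl | rfl | rfl | rfl
    · have := hH.a i j; have := sq_nonneg (A (i, j)); linarith
    · have := hH.b i j; have := sq_nonneg (B (i, j)); simp only; linarith
    · have := hH.c i j; have := sq_nonneg (C (i, j)); simp only; linarith
    · have := hH.d i j; have := sq_nonneg (D (i, j)); simp only; linarith

/-- The extension is subharmonic where no spin is inserted. -/
theorem lap_hat {x : Site} (hθ : θ (x.1 - 1, x.2) = θ (x.1 - 1, x.2 - 1)) :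
    hat Λ Hs x - Hs x ≤ lap (hat Λ Hs) x := by
  have hb := HB.of_spr h hH
  by_cases hv : x ∈ Λ
  swap
  · exact hb.lap_hat_out hv
  obtain ⟨i, j⟩ := x
  simp only at hθ
  have t2 := h.θ2 (i - 1, j)
  have k : ∀ y : Site, (((i, j) : Site) = (y.1 + 1, y.2) ∨ ((i, j) : Site) = (y.1 - 1, y.2) ∨
      ((i, j) : Site) = (y.1, y.2 + 1) ∨ ((i, j) : Site) = (y.1, y.2 - 1)) →
      Hs y + 1 / 5 * (oi Λ y * (Hs (i, j) - Hs y)) ≤ hat Λ Hs y := by
    intro y hy
    by_cases h' : y ∈ Λ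
    · rw [oi_in h', hat_in h']; simp
    · rw [oi_out h']
      linarith [hb.inc h' hy]
  have k1 := k (i + 1, j) (by simp)
  have k2 := k (i - 1, j) (by simp)
  have k3 := k (i, j + 1) (by simp)
  have k4 := k (i, j - 1) (by simp)
  have key := alg (a := A (i, j)) (b := θ (i - 1, j) * B (i - 1, j)) (c := C (i, j - 1))
    (d := θ (i - 1, j) * D (i - 1, j - 1))
    (n := Hs (i, j + 1) - Hs (i, j) + 1 / 5 * (oi Λ (i, j + 1) * (Hs (i, j) - Hs (i, j + 1))))
    (s := Hs (i, j - 1) - Hs (i, j) + 1 / 5 * (oi Λ (i, j - 1) * (Hs (i, j) - Hs (i, j - 1))))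
    (e := Hs (i + 1, j) - Hs (i, j) + 1 / 5 * (oi Λ (i + 1, j) * (Hs (i, j) - Hs (i + 1, j))))
    (w := Hs (i - 1, j) - Hs (i, j) + 1 / 5 * (oi Λ (i - 1, j) * (Hs (i, j) - Hs (i - 1, j))))
    ?_ ?_ ?_ ?_
  · unfold lap
    simp only [hat_in hv]
    linarith
  · by_cases hn : ((i, j + 1) : Site) ∈ Λ
    · left
      rw [oi_in hn, dN h hH (mem_ver.2 ⟨hv, hn⟩)]
      linear_combination (-B (i - 1, j) ^ 2) * t2
    · right
      have e1 := h.H0 (i - 1) j (by rw [sub_add_cancel, mem_ver]; exact fun hh => hn hh.2)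
      have e2 := hH.a i j
      have e3 := hb.zero (i, j) (i, j + 1) (by simp [mem_cnr]) hn
      rw [sub_add_cancel] at e1
      rw [oi_out hn, e1.1]
      exact ⟨by linear_combination A (i, j) * t2,
        by linear_combination (-4 / 5) * e2 + (-4 / 5) * e3⟩
  · by_cases hn : ((i, j - 1) : Site) ∈ Λ
    · left
      rw [oi_in hn, dS h hH (i := i) (j := j) (mem_ver.2 ⟨hn, by simpa using hv⟩), ← hθ]
      linear_combination (-D (i - 1, j - 1) ^ 2) * t2
    · right
      have e1 := h.H0 (i - 1) (j - 1) (by rw [sub_add_cancel, mem_ver]; exact fun hh => hn hh.1)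
      have e2 := hH.c i (j - 1)
      have e3 := hb.zero (i, j - 1) (i, j - 1) (self_cnr _) hn
      rw [sub_add_cancel] at e1 e2
      rw [oi_out hn, e1.2, ← hθ]
      exact ⟨by linear_combination (-C (i, j - 1)) * t2,
        by linear_combination (-4 / 5) * e2 + (-4 / 5) * e3⟩
  · by_cases hn : ((i + 1, j) : Site) ∈ Λ
    · left
      rw [oi_in hn, dE h hH (mem_hor.2 ⟨hv, hn⟩)]
      ring
    · right
      have e1 := h.V0 i (j - 1) (by rw [sub_add_cancel, mem_hor]; exact fun hh => hn hh.2)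
      have e2 := hH.a i j
      have e3 := hb.zero (i, j) (i + 1, j) (by simp [mem_cnr]) hn
      rw [sub_add_cancel] at e1
      rw [oi_out hn]
      exact ⟨e1.1, by linear_combination (-4 / 5) * e2 + (-4 / 5) * e3⟩
  · by_cases hn : ((i - 1, j) : Site) ∈ Λ
    · left
      rw [oi_in hn, dW h hH (i := i) (j := j) (mem_hor.2 ⟨hn, by simpa using hv⟩)]
      linear_combination (-B (i - 1, j) ^ 2 - D (i - 1, j - 1) ^ 2 +
        2 * √2 * (B (i - 1, j) * D (i - 1, j - 1))) * t2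
    · right
      have e1 := h.V0 (i - 1) (j - 1) (by rw [sub_add_cancel, mem_hor]; exact fun hh => hn hh.1)
      have e2 := hH.b (i - 1) j
      have e3 := hb.zero (i - 1, j) (i - 1, j) (self_cnr _) hn
      rw [sub_add_cancel] at e1 e2
      rw [oi_out hn, e1.2]
      refine ⟨rfl, ?_⟩
      linear_combination (-4 / 5) * e2 + (-4 / 5) * e3 + (4 / 5) * B (i - 1, j) ^ 2 * t2

theorem Reg.of_spr {x : Site} (hθ : θ (x.1 - 1, x.2) = θ (x.1 - 1, x.2 - 1))
    (hτ : τ (x.1, x.2) = τ (x.1, x.2 - 1)) : Reg Λ Hs Hf x := by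
  refine ⟨(sub_nonneg.2 ((HB.of_spr h hH).le_hat x)).trans (lap_hat h hH hθ), fun hin => ?_⟩
  obtain ⟨i, j⟩ := x
  exact lapf_nonpos h hH (hin (i, j) (by simp [mem_cnr])) (hin (i + 1, j) (by simp [mem_cnr]))
    (hin (i, j + 1) (by simp [mem_cnr])) (hin (i + 1, j + 1) (by simp [mem_cnr])) hτ

end

section

variable {Λ : Finset Site} {τ θ A B C E Hs Hf : Site → ℝ} (h : Spr Λ τ θ A B C E)
  (hH : IsH A B C E Hs Hf)

include h hH

theorem sqV (i j : ℤ) :
    A (i, j + 1) ^ 2 + B (i, j + 1) ^ 2 ≤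
      3 * (|Hf (i, j + 1) - Hf (i, j)| + |Hs (i + 1, j + 1) - Hs (i, j + 1)|) ∧
    C (i, j) ^ 2 + E (i, j) ^ 2 ≤
      3 * (|Hf (i, j + 1) - Hf (i, j)| + |Hs (i + 1, j + 1) - Hs (i, j + 1)|) := by
  have ha := hH.a i (j + 1)
  have hb := hH.b i (j + 1)
  have hc := hH.c i j
  have hd := hH.d i j
  by_cases hh : ((i, j + 1) : Site) ∈ hor Λ
  · obtain ⟨h1, h2⟩ := h.V i j hh
    have ht := h.τ2 (i, j)
    set t := τ (i, j) with htt
    have s2 : √2 * √2 = 2 := Real.mul_self_sqrt (by norm_num)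
    constructor
    · have e1 : Hf (i, j + 1) - Hf (i, j) = A (i, j + 1) ^ 2 + B (i, j + 1) ^ 2 -
          2 * √2 * (t * (A (i, j + 1) * B (i, j + 1))) := by
        rw [h1] at hc
        linear_combination hc - ha + (A (i, j + 1)) ^ 2 * s2 + B (i, j + 1) ^ 2 * ht
      have e2 : Hs (i + 1, j + 1) - Hs (i, j + 1) = -(A (i, j + 1) ^ 2 - B (i, j + 1) ^ 2) := by
        linear_combination hb - ha
      rw [e1, e2, abs_neg]
      exact H170.sq_two ht
    · have e3 : A (i, j + 1) = √2 * C (i, j) + t * E (i, j) := by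
        rw [h1, h2]; linear_combination (-A (i, j + 1)) * s2 + A (i, j + 1) * ht
      have e1 : Hf (i, j + 1) - Hf (i, j) = -(C (i, j) ^ 2 + E (i, j) ^ 2 -
          2 * √2 * (-t * (C (i, j) * E (i, j)))) := by
        rw [e3] at ha
        linear_combination hc - ha - (C (i, j)) ^ 2 * s2 - E (i, j) ^ 2 * ht
      have e2 : Hs (i + 1, j + 1) - Hs (i, j + 1) = -(C (i, j) ^ 2 - E (i, j) ^ 2) := by
        linear_combination hd - hc
      rw [e1, e2, abs_neg, abs_neg]
      exact H170.sq_two (by rw [neg_mul_neg]; exact ht)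
  · obtain ⟨h1, h2⟩ := h.V0 i j hh
    rw [h1, h2]
    suffices hs : A (i, j + 1) ^ 2 + B (i, j + 1) ^ 2 ≤
      3 * (|Hf (i, j + 1) - Hf (i, j)| + |Hs (i + 1, j + 1) - Hs (i, j + 1)|) from ⟨hs, hs⟩
    have h3 : ((i, j + 1) : Site) ∉ Λ ∨ ((i + 1, j + 1) : Site) ∉ Λ := by
      by_contra hc
      push Not at hc
      exact hh (mem_hor.2 hc)
    have hpos := abs_nonneg (Hf (i, j + 1) - Hf (i, j))
    rcases h3 with h3 | h3
    · have hA := h.zA i (j + 1) h3
      rw [hA] at ha ⊢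
      have := le_abs_self (Hs (i + 1, j + 1) - Hs (i, j + 1))
      nlinarith [sq_nonneg (B (i, j + 1))]
    · have hB := h.zB i (j + 1) h3
      rw [hB] at hb ⊢
      have := neg_abs_le (Hs (i + 1, j + 1) - Hs (i, j + 1))
      nlinarith [sq_nonneg (A (i, j + 1))]

end

section

variable {Λ : Finset Site} {τ θ A B C D Hs Hf : Site → ℝ} {P R G : Finset Site}
  (h : Spr Λ τ θ A B C D) (hH : IsH A B C D Hs Hf) (hE : Exg Λ τ θ P R G)

include h hH hE

theorem lap_P {v : Site} (hv : v ∈ P) : -sqS A B C D v ≤ lap Hs v := by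
  obtain ⟨i, j⟩ := v
  have h0 := sqS_nonneg A B C D (i, j)
  have mem := hE.inP _ hv
  have key := lap_int_lower h hH (mem (i, j) (by simp) (by simp))
    (mem (i, j + 1) (by simp) (by simp)) (mem (i, j - 1) (by simp) (by simp))
    (mem (i + 1, j) (by simp) (by simp)) (mem (i - 1, j) (by simp) (by simp))
  have e : sqS A B C D (i, j) = A (i, j) ^ 2 + B (i - 1, j) ^ 2 + C (i, j - 1) ^ 2 +
    D (i - 1, j - 1) ^ 2 := rfl
  rw [← e] at key
  have h2 : √2 ≤ 3 / 2 := by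
    rw [Real.sqrt_le_left (by norm_num)]; norm_num
  nlinarith

theorem lapf_R {f : Site} (hf : f ∈ R) : lap Hf f ≤ sqF A B C D f := by
  obtain ⟨i, j⟩ := f
  have h0 := sqF_nonneg A B C D (i, j)
  have mem := hE.inR _ hf
  have key := lapf_upper h hH (mem (i, j) (by simp) (by simp))
    (mem (i + 1, j) (by simp) (by simp)) (mem (i, j + 1) (by simp) (by simp))
    (mem (i + 1, j + 1) (by simp) (by simp))
  refine key.trans ?_
  unfold sqF at h0 ⊢
  have h2 : √2 ≤ 3 / 2 := by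
    rw [Real.sqrt_le_left (by norm_num)]; norm_num
  nlinarith

/-- The values at a disorder. -/
theorem sqF_G {f : Site} (hf : f ∈ G) : sqF A B C D f ≤ 3 * ∑ v ∈ cnr f, |lap Hs v| := by
  have hgood := hE.good f hf
  have hneg := hE.neg f hf
  have hin := hE.inR _ (hE.sub hf)
  obtain ⟨i, j⟩ := f
  simp only at hin hneg
  have np : ∀ x y : ℤ, ((x, y) : Site) ∈ cnr (i, j) → θ (x - 1, y) = θ (x - 1, y - 1) :=
    fun x y hxy => hE.θc x y (hgood _ hxy)
  have t1 := np i j (by simp [mem_cnr])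
  have t2 := np (i + 1) j (by simp [mem_cnr])
  have t3 := np i (j + 1) (by simp [mem_cnr])
  have t4 := np (i + 1) (j + 1) (by simp [mem_cnr])
  rw [add_sub_cancel_right] at t2 t3
  rw [add_sub_cancel_right, add_sub_cancel_right] at t4
  have key := branch_face h hH (i := i) (j := j) (fun x y h1 h2 h3 h4 =>
    hin (x, y) (by rw [abs_le]; simp only; lia) (by rw [abs_le]; simp only; lia)) t1 t2 t3 t4 hneg
  have hs : lap Hs (i, j) + lap Hs (i + 1, j) + lap Hs (i, j + 1) + lap Hs (i + 1, j + 1) ≤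
      ∑ v ∈ cnr (i, j), |lap Hs v| := by
    rw [sum_cnr]
    have := le_abs_self (lap Hs (i, j))
    have := le_abs_self (lap Hs (i + 1, j))
    have := le_abs_self (lap Hs (i, j + 1))
    have := le_abs_self (lap Hs (i + 1, j + 1))
    simp only
    linarith
  have h0 := sqF_nonneg A B C D (i, j)
  have h2 : √2 ≤ 17 / 12 := by
    rw [Real.sqrt_le_left (by norm_num)]; norm_num
  nlinarith

theorem lapf_np {f : Site} (hf : f ∉ R) (hin : ∀ u ∈ cnr f, u ∈ Λ) : lap Hf f ≤ 0 := by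
  obtain ⟨i, j⟩ := f
  exact lapf_nonpos h hH (hin (i, j) (by simp [mem_cnr])) (hin (i + 1, j) (by simp [mem_cnr]))
    (hin (i, j + 1) (by simp [mem_cnr])) (hin (i + 1, j + 1) (by simp [mem_cnr])) (hE.τc i j hf)

end

end Vale.Agent.P144T
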