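import Vale.Agent.P144T.H1

/-!
The `H`-function of a spinor in an arbitrary finite set: masses, `ℓ²` bounds, uniqueness, the
values in the holes.
-/

namespace Vale.Agent.P144T

open Finset Vale.Agent.P144
open Vale.Agent.P144.AL hiding IsH
open Vale.Agent.P144.H170 (Pt D bx mem_bx bx_mono lap_AL)
open Vale.Agent.P144.H135 (CT CT_zero CT_le_one bx_step' bx_step'')
open Vale.Agent.P144G (Exg)
open Vale.Agent.P144S.M (shift_le cutoff')

theorem nbr_sum {w : Site → ℝ} (w0 : ∀ x, 0 ≤ w x) {S : Finset Site} (hS : ∀ x ∉ S, w x = 0)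
    (T : Finset Site) : ∑ x ∈ T, (w (x.1 + 1, x.2) + w (x.1 - 1, x.2) + w (x.1, x.2 + 1) +
      w (x.1, x.2 - 1)) ≤ 4 * ∑ x ∈ S, w x := by
  rw [sum_add_distrib, sum_add_distrib, sum_add_distrib]
  have c1 := shift_le w0 hS T (g := fun x => (x.1 + 1, x.2)) fun x y hxy => by
    simp only [Prod.mk.injEq] at hxy; exact Prod.ext (by lia) hxy.2
  have c2 := shift_le w0 hS T (g := fun x => (x.1 - 1, x.2)) fun x y hxy => by
    simp only [Prod.mk.injEq] at hxy; exact Prod.ext (by lia) hxy.2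
  have c3 := shift_le w0 hS T (g := fun x => (x.1, x.2 + 1)) fun x y hxy => by
    simp only [Prod.mk.injEq] at hxy; exact Prod.ext hxy.1 (by lia)
  have c4 := shift_le w0 hS T (g := fun x => (x.1, x.2 - 1)) fun x y hxy => by
    simp only [Prod.mk.injEq] at hxy; exact Prod.ext hxy.1 (by lia)
  linarith

section

variable {Λ : Finset Site} {τ θ A B C E Hs Hf : Site → ℝ} {Q R G : Finset Site}
  (h : Spr Λ τ θ A B C E) (hH : IsH A B C E Hs Hf) (hE : Exg Λ τ θ Q R G)

include h hH hE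

theorem hat_Q {x : Site} (hx : x ∈ Q) : -sqS A B C E x ≤ lap (hat Λ Hs) x := by
  have hb := HB.of_spr h hH
  have h1 := lap_P h hH hE hx
  have h2 := hb.le_hat (x.1 + 1, x.2)
  have h3 := hb.le_hat (x.1 - 1, x.2)
  have h4 := hb.le_hat (x.1, x.2 + 1)
  have h5 := hb.le_hat (x.1, x.2 - 1)
  unfold lap at h1 ⊢
  rw [hat_in (hE.inP x hx x (by simp) (by simp))]
  linarith

/-- The total masses. -/
theorem mass (T : Finset Site) : ∑ v ∈ T, |lap Hs v| ≤ 18 * ∑ p ∈ Q, sqS A B C E p ∧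
    ∑ f ∈ T, |lap Hf f| ≤ 752 * ∑ p ∈ Q, sqS A B C E p + 2 * ∑ f ∈ R \ G, sqF A B C E f := by
  classical
  have hb := HB.of_spr h hH
  obtain ⟨M, hM, s1, s2, s3⟩ := hb.supp ∅
  set w : Site → ℝ := fun x => hat Λ Hs x - Hs x with hw
  have w0 : ∀ x, 0 ≤ w x := fun x => sub_nonneg.2 (hb.le_hat x)
  have w1 : ∀ x ∉ Q, w x ≤ lap (hat Λ Hs) x := fun x hx => lap_hat h hH (hE.θc x.1 x.2 hx)
  have w3 : ∀ x ∉ box (M + 1), w x = 0 := fun x hx => by
    have : x ∉ box M := fun h' => hx (H436.box_mono (by lia) h')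
    simp only [hw]
    rw [s3 x this, s1 x this, sub_zero]
  have k1 : ∑ x ∈ box (M + 1), w x ≤ 2 * ∑ p ∈ Q, sqS A B C E p := by
    refine le_trans (sum_le_sum fun x _ => ?_) ((mass_any (P := Q) s3
      (fun x hx => (w0 x).trans (w1 x hx)) (box (M + 1))).trans ?_)
    · by_cases hx : x ∈ Q
      · simp only [hw]
        rw [hat_in (hE.inP x hx x (by simp) (by simp)), sub_self]
        exact abs_nonneg _
      · exact (w1 x hx).trans (le_abs_self _)
    · refine mul_le_mul_of_nonneg_left (sum_le_sum fun p hp => ?_) (by norm_num)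
      exact max_le (sqS_nonneg _ _ _ _ _) (by linarith [hat_Q h hH hE hp])
  have ite_le : ∀ (S U : Finset Site) (g : Site → ℝ), (∀ x, 0 ≤ g x) →
      ∑ x ∈ S, (if x ∈ U then g x else 0) ≤ ∑ x ∈ U, g x := fun S U g hg => by
    rw [← sum_filter]
    exact sum_le_sum_of_subset_of_nonneg (fun f hf => (mem_filter.1 hf).2) fun _ _ _ => hg _
  have k2 : ∀ T : Finset Site, ∑ v ∈ T, |lap Hs v| ≤ 18 * ∑ p ∈ Q, sqS A B C E p := by
    intro T
    refine (mass_any (P := box (M + 1)) s1 (fun x hx => (supp_lap s1 x hx).ge) T).trans ?_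
    have a1 : ∀ x ∈ box (M + 1), max 0 (-lap Hs x) ≤ (w (x.1 + 1, x.2) + w (x.1 - 1, x.2) +
        w (x.1, x.2 + 1) + w (x.1, x.2 - 1)) + (if x ∈ Q then sqS A B C E x else 0) := by
      intro x _
      have b2 := w0 x
      have b3 := w0 (x.1 + 1, x.2)
      have b4 := w0 (x.1 - 1, x.2)
      have b5 := w0 (x.1, x.2 + 1)
      have b6 := w0 (x.1, x.2 - 1)
      have b7 := sqS_nonneg A B C E x
      split_ifs with hx
      · exact max_le (by linarith) (by linarith [lap_P h hH hE hx])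
      · have b1 := w1 x hx
        refine max_le (by linarith) ?_
        simp only [hw] at b1 b2 ⊢
        unfold lap at b1 ⊢
        linarith
    have a2 := sum_le_sum a1
    rw [sum_add_distrib] at a2
    linarith [nbr_sum w0 w3 (box (M + 1)), ite_le (box (M + 1)) Q _ (sqS_nonneg A B C E)]
  refine ⟨k2 T, ?_⟩
  have e : ∀ x, lap (fun y => -Hf y) x = -lap Hf x := fun x => by unfold lap; ring
  have s2' : ∀ x ∉ box M, -Hf x = 0 := fun x hx => by rw [s2 x hx, neg_zero]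
  have key := mass_any (u := fun y => -Hf y) (P := box (M + 1)) s2'
    (fun x hx => (supp_lap s2' x hx).ge) T
  simp only [e, abs_neg, neg_neg] at key
  set u : Site → ℝ := fun v => 3 * |lap Hs v| + 20 * w v with hu
  have u0 : ∀ v, 0 ≤ u v := fun v => by
    simp only [hu]
    linarith [abs_nonneg (lap Hs v), w0 v]
  have a1 : ∀ f ∈ box (M + 1), max 0 (lap Hf f) ≤ ∑ v ∈ cnr f, u v +
      (if f ∈ R \ G then sqF A B C E f else 0) := by
    intro f _
    have n0 : 0 ≤ ∑ v ∈ cnr f, |lap Hs v| := sum_nonneg fun _ _ => abs_nonneg _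
    have n1 : 0 ≤ ∑ v ∈ cnr f, w v := sum_nonneg fun _ _ => w0 _
    have n2 : 0 ≤ (if f ∈ R \ G then sqF A B C E f else 0) := by
      split_ifs
      · exact sqF_nonneg _ _ _ _ _
      · exact le_rfl
    simp only [hu]
    rw [sum_add_distrib, ← mul_sum, ← mul_sum]
    refine max_le (by positivity) ?_
    by_cases hR : f ∈ R
    · have b1 := lapf_R h hH hE hR
      by_cases hG : f ∈ G
      · linarith [sqF_G h hH hE hG]
      · rw [if_pos (mem_sdiff.2 ⟨hR, hG⟩)]
        linarith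
    · by_cases hin : ∀ u ∈ cnr f, u ∈ Λ
      · linarith [lapf_np h hH hE hR hin]
      · push Not at hin
        obtain ⟨y, y1, y2⟩ := hin
        have := hb.lapf_out y1 y2
        simp only [hw] at n1 ⊢
        linarith
  have a2 := sum_le_sum a1
  rw [sum_add_distrib] at a2
  have a4 := sum_sum_cnr u0 (T := box (M + 1)) (S := box (M + 1)) fun v hv => by
    simp only [hu]
    rw [supp_lap s1 v hv, w3 v hv, abs_zero, mul_zero, mul_zero, add_zero]
  have a5 : ∑ v ∈ box (M + 1), u v ≤ 94 * ∑ p ∈ Q, sqS A B C E p := by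
    simp only [hu]
    rw [sum_add_distrib, ← mul_sum, ← mul_sum]
    linarith [k2 (box (M + 1))]
  linarith [ite_le (box (M + 1)) (R \ G) _ (sqF_nonneg A B C E)]

/-- Masses of the cut-off `H`-function. -/
theorem mass_cut {c : Site} {n : ℕ} {L : ℝ} (hn : 0 < n) (hL0 : 0 ≤ L) (hQ : Q ⊆ bx c n)
    (hRG : R \ G ⊆ bx c n) (hG : ∀ f ∈ G, f ∉ bx c (8 * n)) (hin : ∀ x ∈ bx c (8 * n + 1), x ∈ Λ)
    (hLs : ∀ x ∈ bx c (8 * n), x ∉ bx c (n - 1) → |Hs x| ≤ L)
    (hLf : ∀ x ∈ bx c (8 * n), x ∉ bx c (n - 1) → |Hf x| ≤ L) (T : Finset Site) :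
    ∑ x ∈ T, |H170.lap (fun x => (1 - CT c (2 * n) x) * Hs x) x| +
      ∑ x ∈ T, |H170.lap (fun x => (1 - CT c (2 * n) x) * Hf x) x| ≤ 900000 * L := by
  classical
  have hb := HB.of_spr h hH
  obtain ⟨M, hM, s1, s2, s3⟩ := hb.supp ∅
  have m3 : ∀ x ∈ bx c (8 * n), ∀ y : Site, |y.1 - x.1| ≤ 1 → |y.2 - x.2| ≤ 1 → y ∈ Λ :=
    fun x hx y h1 h2 => hin y (by
      rw [mem_bx] at hx ⊢
      rw [abs_le] at h1 h2
      push_cast at hx ⊢
      lia)
  have m2 : ∀ x ∈ bx c (8 * n), x ∈ Λ := fun x hx => m3 x hx x (by simp) (by simp)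
  have hθ : ∀ x : Site, x ∉ bx c n → θ (x.1 - 1, x.2) = θ (x.1 - 1, x.2 - 1) := fun x hx =>
    hE.θc x.1 x.2 fun h' => hx (hQ h')
  set w : Site → ℝ := fun x => hat Λ Hs x - Hs x with hw
  have w0 : ∀ x, 0 ≤ w x := fun x => sub_nonneg.2 (hb.le_hat x)
  have w1 : ∀ x ∉ bx c n, w x ≤ lap (hat Λ Hs) x := fun x hx => lap_hat h hH (hθ x hx)
  have w2 : ∀ x ∈ bx c (8 * n), w x = 0 := fun x hx =>
    sub_eq_zero.2 (hat_in (m2 x hx))
  have w3 : ∀ x ∉ box (M + 1), w x = 0 := fun x hx => by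
    have : x ∉ box M := fun h' => hx (H436.box_mono (by lia) h')
    simp only [hw]
    rw [s3 x this, s1 x this, sub_zero]
  have ct0 : ∀ x ∉ bx c (4 * n - 1), CT c (2 * n) x = 0 := fun x hx =>
    CT_zero (by lia) fun h' => hx (bx_mono (by lia) h')
  have k1 := (cutoff' (c := c) hn (h := hat Λ Hs) (M := 0) hL0 s3
    (fun x hx hx' => by rw [hat_in (m2 x hx)]; exact hLs x hx hx')
    (fun x _ hx => (w0 x).trans (w1 x hx)) (le_of_eq (sum_eq_zero fun x hx =>
      max_eq_left (by linarith [w0 x, w1 x (mem_filter.1 hx).2])))).1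
  have k2 : ∑ x ∈ box (M + 1), w x ≤ 2100 * L := by
    refine le_trans (sum_le_sum fun x _ => ?_) (k1.trans (by linarith))
    by_cases hx : x ∈ bx c (8 * n)
    · rw [w2 x hx]
      exact mul_nonneg (by linarith [CT_le_one c (2 * n) x]) (abs_nonneg _)
    · rw [ct0 x fun h' => hx (bx_mono (by lia) h'), sub_zero, one_mul]
      exact (w1 x fun h' => hx (bx_mono (by lia) h')).trans (le_abs_self _)
  have k3 := cutoff' (c := c) hn (h := Hs) (M := 8400 * L) hL0 s1 hLs (fun x hx hx' => by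
      obtain ⟨i, j⟩ := x
      have e := lap_int h hH (m2 _ hx) (m3 _ hx (i, j + 1) (by simp) (by simp))
        (m3 _ hx (i, j - 1) (by simp) (by simp)) (m3 _ hx (i + 1, j) (by simp) (by simp))
        (m3 _ hx (i - 1, j) (by simp) (by simp))
      rw [← hθ _ hx'] at e
      rw [e]
      exact quad_nonneg _ _ _ _ _ (h.θ2 _)) (by
      have a1 : ∀ x ∈ (box (M + 1)).filter (fun x => x ∉ bx c n), max 0 (-lap Hs x) ≤
          w (x.1 + 1, x.2) + w (x.1 - 1, x.2) + w (x.1, x.2 + 1) + w (x.1, x.2 - 1) := by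
        intro x hx
        have b1 := w1 x (mem_filter.1 hx).2
        have b2 := w0 x
        have b3 := w0 (x.1 + 1, x.2)
        have b4 := w0 (x.1 - 1, x.2)
        have b5 := w0 (x.1, x.2 + 1)
        have b6 := w0 (x.1, x.2 - 1)
        refine max_le (by linarith) ?_
        simp only [hw] at b1 b2 ⊢
        unfold lap at b1 ⊢
        linarith
      refine (sum_le_sum a1).trans ?_
      rw [sum_add_distrib, sum_add_distrib, sum_add_distrib]
      have c1 := shift_le w0 w3 ((box (M + 1)).filter fun x => x ∉ bx c n)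
        (g := fun x => (x.1 + 1, x.2)) fun x y hxy => by
          simp only [Prod.mk.injEq] at hxy; exact Prod.ext (by lia) hxy.2
      have c2 := shift_le w0 w3 ((box (M + 1)).filter fun x => x ∉ bx c n)
        (g := fun x => (x.1 - 1, x.2)) fun x y hxy => by
          simp only [Prod.mk.injEq] at hxy; exact Prod.ext (by lia) hxy.2
      have c3 := shift_le w0 w3 ((box (M + 1)).filter fun x => x ∉ bx c n)
        (g := fun x => (x.1, x.2 + 1)) fun x y hxy => by
          simp only [Prod.mk.injEq] at hxy; exact Prod.ext hxy.1 (by lia)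
      have c4 := shift_le w0 w3 ((box (M + 1)).filter fun x => x ∉ bx c n)
        (g := fun x => (x.1, x.2 - 1)) fun x y hxy => by
          simp only [Prod.mk.injEq] at hxy; exact Prod.ext hxy.1 (by lia)
      linarith)
  have nR : ∀ x, x ∉ bx c n → x ∉ G → x ∉ R := fun x hx hxG hR =>
    hx (hRG (mem_sdiff.2 ⟨hR, hxG⟩))
  have f1 : ∀ x, x ∉ bx c n → x ∈ bx c (8 * n) → lap Hf x ≤ 0 := fun x hx hx' =>
    lapf_np h hH hE (nR x hx fun h' => hG x h' hx') fun u hu => m3 x hx' u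
      (by rcases mem_cnr.1 hu with rfl | rfl | rfl | rfl <;> simp)
      (by rcases mem_cnr.1 hu with rfl | rfl | rfl | rfl <;> simp)
  set u : Site → ℝ := fun v => 3 * ((1 - CT c (2 * n) v) * |lap Hs v|) + 20 * w v with hu
  have u1 : ∀ v, 0 ≤ (1 - CT c (2 * n) v) * |lap Hs v| := fun v =>
    mul_nonneg (by linarith [CT_le_one c (2 * n) v]) (abs_nonneg _)
  have u0 : ∀ v, 0 ≤ u v := fun v => by
    simp only [hu]
    linarith [u1 v, w0 v]
  have g1 : ∀ x ∈ (box (M + 1)).filter (fun x => x ∉ bx c n),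
      max 0 (lap Hf x) ≤ ∑ v ∈ cnr x, u v := by
    intro x hx
    have hx1 := (mem_filter.1 hx).2
    have n0 : 0 ≤ ∑ v ∈ cnr x, u v := sum_nonneg fun v _ => u0 v
    refine max_le n0 ?_
    by_cases hxG : x ∈ G
    · refine ((lapf_R h hH hE (hE.sub hxG)).trans (sqF_G h hH hE hxG)).trans ?_
      rw [mul_sum]
      refine sum_le_sum fun v hv => ?_
      have : v ∉ bx c (4 * n - 1) := by
        intro hv'
        apply hG x hxG
        have hv2 := bx_mono (show 4 * n - 1 ≤ 4 * n by lia) hv'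
        rw [AL.mem_cnr'] at hv
        rw [mem_bx] at hv2 ⊢
        push_cast at hv2 ⊢
        rcases hv with rfl | rfl | rfl | rfl <;> lia
      simp only [hu]
      rw [ct0 v this, sub_zero, one_mul]
      linarith [w0 v]
    · by_cases hP : ∀ u ∈ cnr x, u ∈ Λ
      · exact (lapf_np h hH hE (nR x hx1 hxG) hP).trans n0
      · push Not at hP
        obtain ⟨y, y1, y2⟩ := hP
        refine (hb.lapf_out y1 y2).trans ?_
        rw [mul_sum]
        refine sum_le_sum fun v _ => ?_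
        simp only [hu, hw]
        linarith [u1 v]
  have g2 := AL.sum_sum_cnr u0 (T := (box (M + 1)).filter fun x => x ∉ bx c n)
    (S := box (M + 1)) fun v hv => by
      simp only [hu]
      rw [AL.supp_lap s1 v hv, w3 v hv, abs_zero, mul_zero, mul_zero, mul_zero, add_zero]
  have g3 : ∑ v ∈ box (M + 1), u v ≤ 98700 * L := by
    simp only [hu]
    rw [sum_add_distrib, ← mul_sum, ← mul_sum]
    linarith [k3.1]
  have neg : ∀ x, lap (fun y => -Hf y) x = -lap Hf x := fun x => by unfold lap; ring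
  have k4 := (cutoff' (c := c) hn (h := fun y => -Hf y) (M := 394800 * L) hL0 (K := M)
    (fun x hx => by simp only [s2 x hx, neg_zero])
    (fun x hx hx' => by rw [abs_neg]; exact hLf x hx hx')
    (fun x hx hx' => by rw [neg]; linarith [f1 x hx' hx]) (by
      simp only [neg, neg_neg]
      linarith [sum_le_sum g1])).2 T
  have e : ∀ x, |lap (fun x => (1 - CT c (2 * n) x) * -Hf x) x| =
      |lap (fun x => (1 - CT c (2 * n) x) * Hf x) x| := fun x => by
    rw [← abs_neg]; congr 1; unfold lap; ring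
  rw [sum_congr rfl fun x _ => e x] at k4
  simp only [← lap_AL]
  linarith [k3.2 T]

end

section

variable {Λ : Finset Site} {τ θ A B C E Hs Hf : Site → ℝ} (h : Spr Λ τ θ A B C E)
  (hH : IsH A B C E Hs Hf) {c : Site}

include h hH

/-- Local `ℓ²` bound by the masses of functions which agree with the `H`-function outside the
box. -/
theorem sum_sq_out {m : ℕ} {U W : Site → ℝ} {Λ' : Finset Site} (hU0 : ∀ x ∉ Λ', U x = 0)
    (hW0 : ∀ x ∉ Λ', W x = 0) (hU : ∀ x ∉ bx c m, U x = Hs x)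
    (hW : ∀ x ∉ bx c m, W x = Hf x) {M : ℝ} (hM1 : ∀ T : Finset Site, ∑ w ∈ T, |H170.lap U w| ≤ M)
    (hM2 : ∀ T : Finset Site, ∑ w ∈ T, |H170.lap W w| ≤ M) (c' : Site) (r : ℕ) (T : Finset Site)
    (hT : ∀ x ∈ T, x ∈ bx c' r ∧ x ∉ bx c (m + 2)) :
    ∑ x ∈ T, (A x ^ 2 + B x ^ 2 + C x ^ 2 + E x ^ 2) ≤ 1152 * M * (r + 2) := by
  have DU : ∀ e : Pt, (e = (1, 0) ∨ e = (0, 1)) → ∀ x, x ∉ bx c (m + 1) →
      D e Hs x = D e U x ∧ D e Hf x = D e W x := by
    intro e he x hx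
    have h1 : x ∉ bx c m := fun h' => hx (bx_mono (by lia) h')
    have h2 : x + e ∉ bx c m := fun h' => hx (bx_step' he h')
    unfold D
    rw [hU _ h1, hU _ h2, hW _ h1, hW _ h2]
    exact ⟨rfl, rfl⟩
  have hs : ∀ x ∈ T, x ∉ bx c (m + 1) ∧ x - (0, 1) ∉ bx c (m + 1) ∧ x + (0, 1) ∉ bx c (m + 1) := by
    intro x hx
    have h1 := (hT x hx).2
    exact ⟨fun h' => h1 (bx_mono (by lia) h'), fun h' => h1 (bx_step'' (Or.inr rfl) h'),
      fun h' => h1 (bx_step' (Or.inr rfl) h')⟩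
  have k1 : ∀ x ∈ T, A x ^ 2 + B x ^ 2 ≤ 3 * (|D (0, 1) W (x - (0, 1))| + |D (1, 0) U x|) := by
    rintro ⟨i, j⟩ hx
    obtain ⟨a1, a2, a3⟩ := hs _ hx
    rw [← (DU (0, 1) (Or.inr rfl) _ a2).2, ← (DU (1, 0) (Or.inl rfl) _ a1).1]
    have := (sqV h hH i (j - 1)).1
    rw [sub_add_cancel] at this
    unfold D
    simpa using this
  have k2 : ∀ x ∈ T, C x ^ 2 + E x ^ 2 ≤ 3 * (|D (0, 1) W x| + |D (1, 0) U (x + (0, 1))|) := by
    rintro ⟨i, j⟩ hx
    obtain ⟨a1, a2, a3⟩ := hs _ hx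
    rw [← (DU (0, 1) (Or.inr rfl) _ a1).2, ← (DU (1, 0) (Or.inl rfl) _ a3).1]
    have := (sqV h hH i j).2
    unfold D
    simpa using this
  have s0 : ∀ F : Site → ℝ, (∀ x, 0 ≤ F x) → ∀ e : Pt, (e = (0, 1) ∨ e = 0 ∨ e = -(0, 1)) →
      ∑ x ∈ T, F (x + e) ≤ ∑ x ∈ bx c' (r + 1), F x := by
    intro F hF e he
    have e1 : ∑ x ∈ T, F (x + e) = ∑ x ∈ T.image (fun x => x + e), F x := by
      rw [sum_image fun x _ y _ hxy => by simpa using hxy]
    rw [e1]
    refine sum_le_sum_of_subset_of_nonneg ?_ fun _ _ _ => hF _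
    intro x hx
    obtain ⟨y, hy, rfl⟩ := mem_image.1 hx
    have := (hT y hy).1
    rw [mem_bx] at this ⊢
    rcases he with rfl | rfl | rfl <;> simp <;> lia
  have aux : ∀ (u : Site → ℝ), (∀ x ∉ Λ', u x = 0) →
      (∀ T : Finset Site, ∑ w ∈ T, |H170.lap u w| ≤ M) → ∀ e : Site, (e = (1, 0) ∨ e = (0, 1)) →
      ∑ x ∈ bx c' (r + 1), |D e u x| ≤ 96 * ((r:ℝ) + 2) * M := by
    intro u hu hT e he
    obtain ⟨K, hK⟩ : ∃ K : ℕ, Λ' ⊆ box K := (H436.subset_box Λ').exists
    have hs := AL.supp_lap (u := u) (M := K) fun x hx => hu x fun h => hx (hK h)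
    have := H436.grad_sum (u := u) (Λ := Λ') (S := box (K + 1)) hu
      (fun x hx => by rw [H170.lap_eq, ← H170.lap_AL]; exact hs x hx) c' (r + 1) he
    have h3 : ∑ w ∈ box (K + 1), |H436.lap u w| ≤ M := by
      have := hT (box (K + 1))
      simp only [H170.lap_eq]
      exact this
    calc ∑ x ∈ bx c' (r + 1), |D e u x| ≤ 96 * (((r + 1 : ℕ) : ℝ) + 1) * ∑ w ∈ box (K + 1),
          |H436.lap u w| := this
      _ ≤ 96 * (((r + 1 : ℕ) : ℝ) + 1) * M := mul_le_mul_of_nonneg_left h3 (by positivity)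
      _ = _ := by push_cast; ring
  have h1 := aux U hU0 hM1 (1, 0) (Or.inl rfl)
  have h2 := aux W hW0 hM2 (0, 1) (Or.inr rfl)
  have t1 := s0 (fun x => |D (0, 1) W x|) (fun _ => abs_nonneg _) (-(0, 1)) (by simp)
  have t2 := s0 (fun x => |D (1, 0) U x|) (fun _ => abs_nonneg _) 0 (by simp)
  have t3 := s0 (fun x => |D (0, 1) W x|) (fun _ => abs_nonneg _) 0 (by simp)
  have t4 := s0 (fun x => |D (1, 0) U x|) (fun _ => abs_nonneg _) (0, 1) (by simp)
  simp only [add_zero] at t2 t3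
  calc _ ≤ ∑ x ∈ T, (3 * (|D (0, 1) W (x + -(0, 1))| + |D (1, 0) U x|) +
        3 * (|D (0, 1) W x| + |D (1, 0) U (x + (0, 1))|)) := by
        refine sum_le_sum fun x hx => ?_
        have := k1 x hx
        have := k2 x hx
        rw [← sub_eq_add_neg]
        linarith
    _ = 3 * (∑ x ∈ T, |D (0, 1) W (x + -(0, 1))| + ∑ x ∈ T, |D (1, 0) U x|) +
        3 * (∑ x ∈ T, |D (0, 1) W x| + ∑ x ∈ T, |D (1, 0) U (x + (0, 1))|) := by
        rw [sum_add_distrib, ← mul_sum, sum_add_distrib, ← mul_sum, sum_add_distrib]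
    _ ≤ _ := by linarith

/-- `ℓ²` bound of a spinor by the total masses. -/
theorem sum_sq_box {M : ℝ} (h1 : ∀ T : Finset Site, ∑ w ∈ T, |lap Hs w| ≤ M)
    (h2 : ∀ T : Finset Site, ∑ w ∈ T, |lap Hf w| ≤ M) (c : Site) (n : ℕ) :
    ∑ x ∈ bx c n, (A x ^ 2 + B x ^ 2 + C x ^ 2 + E x ^ 2) ≤ 1152 * M * (n + 2) := by
  obtain ⟨K, -, s1, s2, -⟩ := (HB.of_spr h hH).supp ∅
  simp only [lap_AL] at h1 h2
  exact sum_sq_out h hH (c := (c.1 + n + 3, c.2)) (m := 0) s1 s2
    (fun _ _ => rfl) (fun _ _ => rfl) h1 h2 c n _ fun x hx => ⟨hx, fun h' => by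
      rw [mem_bx] at hx h'
      push_cast at h'
      lia⟩

end

/-- A spinor without inserted spins vanishes. -/
theorem unique {Λ : Finset Site} {τ θ A B C D : Site → ℝ} (h : Spr Λ τ θ A B C D)
    (hθ : ∀ i j : ℤ, θ (i - 1, j) = θ (i - 1, j - 1)) (f : Site) :
    A f = 0 ∧ B f = 0 ∧ C f = 0 ∧ D f = 0 := by
  obtain ⟨Hs, Hf, hH⟩ := exists_H h
  have hB := HB.of_spr h hH
  obtain ⟨N, hN, s1, -, hout⟩ := hB.supp ∅
  have w0 : ∀ x, 0 ≤ hat Λ Hs x - Hs x := fun x => sub_nonneg.2 (hB.le_hat x)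
  have w1 : ∀ x, hat Λ Hs x - Hs x ≤ lap (hat Λ Hs) x := fun x => lap_hat h hH (hθ _ _)
  have hl : ∀ x, lap (hat Λ Hs) x = 0 := by
    intro x
    have := mass_any (P := ∅) hout (fun x _ => (w0 x).trans (w1 x)) {x}
    rw [sum_singleton, sum_empty, mul_zero] at this
    exact abs_nonpos_iff.1 this
  have hs0 : ∀ x, Hs x = 0 := fun x => by
    linarith [w0 x, w1 x, hl x, zero_of_lap hout hl x]
  have hz : ∀ f v, v ∈ cnr f → v ∉ Λ → Hf f = 0 := fun f v a b => (hB.zero f v a b).trans (hs0 v)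
  have h2 := sqrt2_sq
  have key : ∀ n : ℕ, ∀ i j : ℤ, (N : ℤ) + 1 - n ≤ j → Hf (i, j) = 0 := by
    intro n
    induction n with
    | zero =>
      intro i j hj
      refine hz (i, j) (i, j) (self_cnr _) fun hh => ?_
      have := hN (mem_union_left _ hh)
      rw [H436.mem_box, abs_le, abs_le] at this
      simp only at this
      lia
    | succ n ih =>
      intro i j hj
      by_cases hj' : (N : ℤ) + 1 - n ≤ j
      · exact ih i j hj'
      · have h1 := ih i (j + 1) (by lia)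
        by_cases hh : ((i, j + 1) : Site) ∈ hor Λ
        · have e1 := h.V i j hh
          have ea := hH.a i (j + 1)
          have eb := hH.b i (j + 1)
          have ec := hH.c i j
          rw [hs0, h1] at ea eb
          rw [hs0] at ec
          have a0 : A (i, j + 1) = 0 := by
            have : A (i, j + 1) ^ 2 = 0 := by linarith
            exact pow_eq_zero_iff (by norm_num) |>.1 this
          have b0 : B (i, j + 1) = 0 := by
            have : B (i, j + 1) ^ 2 = 0 := by linarith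
            exact pow_eq_zero_iff (by norm_num) |>.1 this
          have c0 : C (i, j) = 0 := by rw [e1.1, a0, b0]; ring
          rw [c0] at ec
          linarith
        · rw [mem_hor] at hh
          simp only at hh
          by_cases h3 : ((i, j + 1) : Site) ∈ Λ
          · exact hz _ (i + 1, j + 1) (by simp [mem_cnr]) fun h4 => hh ⟨h3, h4⟩
          · exact hz _ (i, j + 1) (by simp [mem_cnr]) h3
  obtain ⟨i, j⟩ := f
  have hf : Hf (i, j) = 0 := key ((N : ℤ) + 1 - j).toNat i j (by lia)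
  have ha := hH.a i j
  have hb := hH.b i j
  have hc := hH.c i j
  have hd := hH.d i j
  rw [hs0, hf] at ha hb hc hd
  have z : ∀ x : ℝ, 0 - 0 = x ^ 2 → x = 0 := fun x hx =>
    pow_eq_zero_iff (by norm_num) |>.1 (by linarith : x ^ 2 = 0)
  exact ⟨z _ ha, z _ hb, z _ hc, z _ hd⟩

/-- The value at a point far from the masses. -/
theorem hole {U : Site → ℝ} {n : ℕ} {M g : ℝ} (hU : ∀ x ∉ dia n, U x = 0)
    (hM : ∀ T : Finset Site, ∑ w ∈ T, |lap U w| ≤ M) {y : Site} (hg0 : 0 ≤ g)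
    (hg : ∀ w, lap U w ≠ 0 → H436.green (dia n) y w ≤ g) : |U y| ≤ g * M := by
  have hM0 : 0 ≤ M := by simpa using hM ∅
  by_cases hy : y ∈ dia n
  swap
  · rw [hU y hy, abs_zero]; positivity
  obtain ⟨S, -, hS⟩ := P144G.exists_supp hU
  have e := P144G.parts (k := H436.green (dia n) y) hU hS
  have e2 : ∑ w ∈ dia n, U w * lap (H436.green (dia n) y) w = -U y := by
    rw [sum_congr rfl fun w hw => by rw [← lap436, H436.lap_green hw]]
    simp [hy]
  rw [← abs_neg, ← e2, ← e]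
  refine (abs_sum_le_sum_abs _ _).trans (le_trans (sum_le_sum fun w _ => ?_)
    ((mul_sum ..).symm.le.trans (mul_le_mul_of_nonneg_left (hM S) hg0)))
  by_cases hw : lap U w = 0
  · simp [hw]
  · rw [abs_mul, abs_of_nonneg (H436.green_nonneg _ _ _)]
    exact mul_le_mul_of_nonneg_right (hg w hw) (abs_nonneg _)

end Vale.Agent.P144T
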